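import Vale.Agent.P280X.R3.Spl
import Vale.Agent.P280W.Nop

/-!
# P280X, block R3: the outputs
-/

open Vale.Agent.P280Z Vale.Agent.P280Z.Rh Vale.Agent.P280Z.Pr

namespace Vale.Agent.P280X.R3

theorem r3_of (h : SPL) : P280W.R3 := by
  intro T th n V B h7 cl hn hJ pos q
  obtain ⟨j, h1, h2⟩ := h T th V B h7 cl hn hJ pos
  have := Fintype.one_lt_card_iff_nontrivial.1 (show 1 < Fintype.card B.J by omega)
  obtain ⟨i, hi⟩ := exists_ne j
  exact P280W.prj th B cl q hi h1 h2

theorem k347_of (h : CM3G) : P280W.K347 :=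
  fun T V B _ j k _ dj => h T k.th V B k.cls (.inl rfl) j (k.pos j) dj

end Vale.Agent.P280X.R3
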