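import Vale.Agent.P280X.R3.All0
import Vale.Agent.P280X.R3.Out

/-!
# P280X, block R3: the closed outputs
-/

namespace Vale.Agent.P280X.R3

theorem r3 : P280W.R3 := r3_of spl

theorem k347 : P280W.K347 := k347_of cm3g

end Vale.Agent.P280X.R3
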