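import Vale.Agent.P280Z.Pr.Defs
import Vale.Agent.P280Z.Rh.Api

/-!
# P280X, block R3: at least three families, and fibres of dimension three (rows)
-/

open Set
open Vale.Agent.P272.K Vale.Agent.P285.H281.FD Vale.Agent.P281Z
open Vale.Agent.P280Z Vale.Agent.P280Z.Rh Vale.Agent.P280Z.Pr
open Vale.Agent.P280Z.Gm (Fa)

noncomputable section

namespace Vale.Agent.P280X.R3

/-- row GRRL: a relation for the fourth relative Todd class -/
def GRRL : Prop := ∀ T : CT, Th T → ∀ {n y k : ℕ} {V : Mf n} {Y : Mf y} {π : V.X → Y.X}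
  (h : Sub n y π), n = y + 3 → y = k + 1 → (k = 3 ∨ k = 4) → Fa T V → Fa T Y →
  (∀ b, IsConnected (π ⁻¹' {b})) → ∀ L : Bd Y.X, IsLB y L → T.Nn Y (T.c1 Y L) →
  T.int V (td4 (tr T h.hol) * T.pull h.hol ((cX T Y + (2 : ℝ) • T.c1 Y L) ^ k)) = 0

/-- the relation `Cm0` for the family `j` -/
abbrev Cm {T : CT} {n : ℕ} {V : Mf n} (B : Bas T V) (j : B.J) : Prop :=
  Cm0 (nsm (B.F j)) (B.Q {j}).d (B.Q {j}).y (tr T (B.Q {j}).sub.hol)

/-- row CM3G: fibres of dimension three -/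
def CM3G : Prop := ∀ T : CT, Th T → ∀ {n : ℕ} (V : Mf n) (B : Bas T V), Cls n V →
  (n = 7 ∨ n = 8) → ∀ j, 0 < (B.F j).m → (B.Q {j}).d = 3 → Cm B j

/-- row C236G -/
def C236G : Prop := ForS fun S t => ∀ n y, FA S n 1 2 y t → Pl S y t → ∀ x, Un S x → x ^ 4 = 0 →
  ∀ j z, Iv S j z → j + 4 = y → S.GX.int (x ^ 2 * (3 * x - t 1) ^ 4 * z) = 0

/-- row K2228: three families with fibres of dimension two on an eightfold -/
def K2228 : Prop := ∀ T : CT, Th T → ∀ (V : Mf 8) (B : Bas T V), Cls 8 V → ∀ i j k : B.J, i ≠ j →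
  i ≠ k → j ≠ k → (∀ l, l = i ∨ l = j ∨ l = k) → (∀ l, 0 < (B.F l).m) →
  (∀ l, (B.Q {l}).d = 2) → ∃ l, (B.Q {l}ᶜ).y = 2

/-- **the output of the block**: one family splits off -/
def SPL : Prop := ∀ T : CT, Th T → ∀ {n : ℕ} (V : Mf n) (B : Bas T V), 7 ≤ n → Cls n V →
  n ≤ Fintype.card B.J + 5 → 3 ≤ Fintype.card B.J → (∀ j, 0 < (B.F j).m) →
  ∃ j, (B.Q {j}).d = (B.Q {j}ᶜ).y ∧ Cm B j

end Vale.Agent.P280X.R3
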