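import Vale.Agent.P280Z.Pr.D2
import Vale.Agent.P280X.R3.Defs

/-!
# P280X, block R3: row C236G
-/

noncomputable section

namespace Vale.Agent.P280X.R3

open Vale.Agent.P280Z Vale.Agent.P280Z.Pr Al Qs RdH AlgH D2H

namespace C63
variable {A B : Type} [CommRing A] [Algebra ℝ A] [CommRing B] [Algebra ℝ B] {S : NS A B}

/-- the classes whose product with `z` has integral zero -/
def Zz (S : NS A B) (z : A) : Submodule ℝ B := (Z S).comap (LinearMap.mulRight ℝ (S.es z))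

theorem mem {z : A} {b : B} : b ∈ Zz S z ↔ b * S.es z ∈ Z S := Iff.rfl

theorem zz {z v : A} (hv : v * z = 0) (c : B) : c * S.es v ∈ Zz S z := by
  rw [mem, mul_assoc, ← map_mul]
  exact zo hv c

theorem zo' {z v : A} (hv : v = 0) (c : B) : c * S.es v ∈ Zz S z := zz (by rw [hv, zero_mul]) c

theorem redz {n r j : ℕ} {z v : A} {b : B} (h : S.OK0 n r) (hz : Iv S j z) (N : ℕ) [N.AtLeastTwo]
    (hb : b ∈ Zz S z) (e : S.T (ofNat(N) * (u S ^ r * S.es v)) = S.T b) :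
    S.GX.int (v * z) = 0 := by
  refine redN h N (mem.1 hb) ?_
  rw [map_mul S.es, ← mul_assoc (u S ^ r), ← mul_assoc, Tm h _ (S.es z), Tm h b, e, hz.2]
  simp only [mul_zero]

end C63

open C63

theorem c236b : C236G := by
  intro A B _ _ _ _ S t n y F P x hx hx4 j z hz hj
  have h := F.ok
  have hn := F.dim
  obtain ⟨r3, r4⟩ := nw2 F
  obtain ⟨g, hg⟩ : ∃ g, g = 3 * x - t 1 := ⟨_, rfl⟩
  obtain ⟨s, ρ, k, l, hs, hρ, hk', hl, e1, e2, e3, e4, d, hκ⟩ := s12 F P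
  obtain ⟨σ, hσ, ex⟩ := dec h hx.2
  rw [one_mul] at ex
  have ig' : Iv S 1 g := ⟨by
    rw [hg, GA.Dg, map_sub, ← map_ofNat (algebraMap ℝ A), ← Algebra.smul_def, map_smul, F.dt, hx.1],
    by simp only [hg, tc h, hx.2, e1, hs]; ring⟩
  have ig := ig'.2
  obtain rfl : s = 3 * σ - S.es g := by
    simp only [hg, tc h, ex, e1]; ring
  have i2 := iv_mul h ig' ig'
  have i4 : Iv S y (g * g * (g * g) * z) := by
    have := iv_mul h (iv_mul h i2 i2) hz
    rwa [show 1 + 1 + (1 + 1) + j = y by omega] at this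
  have dm : ∀ i j' l, S.GX.Dg (2 * i + j' + l + j) (t 2 ^ i * g ^ j' * x ^ l * z) := fun i j l =>
    h.gx.dg_mul _ _ _ _ (h.gx.dg_mul _ _ _ _ (h.gx.dg_mul _ _ _ _ (by
      induction i with
      | zero => rw [pow_zero]; exact h.gx.dg_one
      | succ i ih => rw [pow_succ]; exact h.gx.dg_mul _ _ _ _ ih (F.dt 2))
      (Elr.dg_pow h.gx ig'.1 j)) (Elr.dg_pow h.gx hx.1 l)) hz.1
  have d6 : ∀ i j l, 2 * i + j + l = 6 → ∀ c, c * ρ * S.es (t 2 ^ i * g ^ j * x ^ l) ∈ Zz S z :=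
    fun i j l e c => by
      rw [mem, mul_assoc, ← map_mul]
      exact d _ _ (dm i j l) (by omega) c
  have d7 : ∀ i j l, 2 * i + j + l = 7 → ∀ c, c * S.es (t 2 ^ i * g ^ j * x ^ l) ∈ Zz S z :=
    fun i j l e => zz (dg_hi h.gx (dm i j l) (by omega))
  have h5 : g ^ 5 * z = 0 := by linear_combination ko F ig' i4
  have hk : (3 * t 2 - t 1 ^ 2) * g ^ 4 * z = 0 := by linear_combination hκ _ i4
  rw [← hg]
  refine redz h hz 531360 (add_mem (zo' r3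
      (59040 * u S ^ 4 + 331976 * u S ^ 2 * σ * S.es g - 55404 * u S ^ 2 * S.es g ^ 2 -
        16584 * u S ^ 2 * S.es g * ρ - 8292 * u S ^ 2 * ρ ^ 2 + 11808 * u S ^ 2 * k -
        743256 * σ ^ 4 + 265880 * σ ^ 3 * S.es g + 193248 * σ ^ 3 * ρ -
        174204 * σ ^ 2 * S.es g ^ 2 - 38232 * σ ^ 2 * S.es g * ρ + 54972 * σ ^ 2 * ρ ^ 2 -
        20088 * σ ^ 2 * k + 64872 * σ * S.es g ^ 3 - 105840 * σ * S.es g ^ 2 * ρ +
        58824 * σ * S.es g * ρ ^ 2 - 4320 * σ * S.es g * k - 10512 * σ * ρ * k -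
        97710 * S.es g ^ 4 + 34872 * S.es g ^ 3 * ρ - 29388 * S.es g ^ 2 * ρ ^ 2 +
        8928 * S.es g * ρ ^ 3 + 2496 * S.es g * ρ * k - 372 * ρ ^ 4 - 552 * ρ ^ 2 * k -
        738 * k ^ 2 + (2292936 * u S ^ 2 * σ + 2292936 * σ ^ 3) * u S))
    (add_mem (zo' r4
      (-72522 * u S ^ 2 * σ - 40500 * u S ^ 2 * S.es g + 9288 * u S ^ 2 * ρ + 12042 * σ ^ 3 -
        28674 * σ ^ 2 * ρ + 29646 * σ * S.es g ^ 2 - 12312 * σ * S.es g * ρ - 1674 * σ * ρ ^ 2 +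
        8748 * σ * k - 12204 * S.es g ^ 3 + 10044 * S.es g ^ 2 * ρ - 6138 * S.es g * ρ ^ 2 +
        4536 * S.es g * k + 279 * ρ ^ 3 + 135 * ρ * k))
    (add_mem (zo' hx4
      (7864776 * u S ^ 2 * σ - 2678040 * u S ^ 2 * S.es g - 8170632 * u S ^ 2 * ρ -
        2006208 * σ ^ 2 * ρ - 154116 * σ * S.es g ^ 2 + 434736 * σ * S.es g * ρ -
        456192 * σ * ρ ^ 2 - 2674836 * σ * k - 1624380 * S.es g ^ 3 + 1014576 * S.es g ^ 2 * ρ +
        19200 * S.es g * ρ ^ 2 + 544644 * S.es g * k + 141696 * ρ * k + 1146468 * l +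
        (2656800 * u S ^ 2 + 6907680 * σ ^ 2 - 5439312 * σ * S.es g + 79704 * σ * ρ +
        1836108 * S.es g ^ 2 - 1825416 * S.es g * ρ + 278964 * ρ ^ 2) * u S))
    (add_mem (zz h5
      ((2261520 * σ - 456300 * S.es g + 495324 * ρ) * u S))
    (add_mem (zz hk
      (-235566 * σ - 78000 * ρ + 227826 * u S))
    (add_mem (d7 1 2 3 rfl
      (-199908))
    (add_mem (d7 1 3 2 rfl
      (431244))
    (add_mem (d7 2 0 3 rfl
      (-139482))
    (add_mem (d7 2 1 2 rfl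
      (71442))
    (add_mem (d7 2 2 1 rfl
      (31914))
    (add_mem (d7 2 3 0 rfl
      (17982))
    (add_mem (d7 3 0 1 rfl
      (6642))
    (add_mem (d7 3 1 0 rfl
      (-5670))
    (add_mem (d6 0 3 3 rfl
      (-665280))
    (add_mem (d6 1 1 3 rfl
      (237168))
    (add_mem (d6 1 2 2 rfl
      (-263088))
    (d6 1 3 1 rfl
      (-65232)))))))))))))))))) ?_
  simp only [ex, e1, e2, e3, e4, tc h, hσ, hρ, hk', hl, ig]
  ring

end Vale.Agent.P280X.R3
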