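import Vale.Agent.P280X.R3.Defs
import Vale.Agent.P280Z.Pr.K336
import Vale.Agent.P280Z.Pr.D3
import Vale.Agent.P280Z.Pr.Fax
import Vale.Agent.P280Z.Pr.Rd

/-!
# P280X, block R3: fibres of dimension three (row CM3G)
-/

open Set
open Vale.Agent.P272.K Vale.Agent.P285.H281.FD Vale.Agent.P281Z
open Vale.Agent.P280Z Vale.Agent.P280Z.Rh Vale.Agent.P280Z.Pr Vale.Agent.P280Z.Pr.K336H

noncomputable section

namespace Vale.Agent.P280X.R3

namespace Cm3gH

variable {T : CT} {n : ℕ} {V : Mf n}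

/-- the linear term of a polynomial which vanishes at the natural numbers -/
theorem lin {A : Type} [CommRing A] [Algebra ℝ A] (I : A →ₗ[ℝ] ℝ) {P c l : A} {k : ℕ}
    (hk : k = 2 ∨ k = 3) (h : ∀ q : ℕ, I (P * (c + (2 : ℝ) • (q : ℝ) • l) ^ (k + 1)) = 0) :
    I (c ^ k * P * l) = 0 := by
  rcases hk with rfl | rfl
  · have e : ∀ r : ℝ, I (P * (c + (2 : ℝ) • r • l) ^ (2 + 1)) = I (P * c ^ 3) +
        6 * r * I (c ^ 2 * P * l) + 12 * r ^ 2 * I (P * c * l ^ 2) + 8 * r ^ 3 * I (P * l ^ 3) :=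
      fun r => by
        simp only [← smul_eq_mul (α := ℝ), ← map_smul, ← map_add]
        simp only [smul_eq_mul, Algebra.smul_def, map_mul, map_pow, map_ofNat]
        congr 1
        ring
    have h0 := h 0
    have h1 := h 1
    have h2 := h 2
    have h3 := h 3
    rw [e] at h0 h1 h2 h3
    push_cast at h0 h1 h2 h3
    linarith
  · have e : ∀ r : ℝ, I (P * (c + (2 : ℝ) • r • l) ^ (3 + 1)) = I (P * c ^ 4) +
        8 * r * I (c ^ 3 * P * l) + 24 * r ^ 2 * I (P * c ^ 2 * l ^ 2) +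
        32 * r ^ 3 * I (P * c * l ^ 3) + 16 * r ^ 4 * I (P * l ^ 4) :=
      fun r => by
        simp only [← smul_eq_mul (α := ℝ), ← map_smul, ← map_add]
        simp only [smul_eq_mul, Algebra.smul_def, map_mul, map_pow, map_ofNat]
        congr 1
        ring
    have h0 := h 0
    have h1 := h 1
    have h2 := h 2
    have h3 := h 3
    have h4 := h 4
    rw [e] at h0 h1 h2 h3 h4
    push_cast at h0 h1 h2 h3 h4
    linarith

theorem td0 (g : GRRL) (hT : Th T) {y k : ℕ} (hn : n = y + 3) (hy : y = k + 1 + 1)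
    (hk : k = 2 ∨ k = 3) {Y : Mf y} {π : V.X → Y.X} (h : Sub n y π) (hV : Fano n V.X)
    (hY : Fano y Y.X) (hc : ∀ b, IsConnected (π ⁻¹' {b})) (ht : ∀ k, T.Dg V k (tr T h.hol k))
    (gen : ∀ a, T.Dg Y 1 a →
      a ∈ Submodule.span ℝ {c | ∃ L, IsLB y L ∧ T.Nn Y (T.c1 Y L) ∧ T.c1 Y L = c}) (b : T.H Y) :
    T.int V (td4 (tr T h.hol) * T.pull h.hol b) = 0 := by
  have ok := hT.ok
  obtain ⟨-, kY⟩ := (fano_iff ok Y).1 hY
  have dP : T.Dg Y 1 (T.push π (td4 (tr T h.hol))) := by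
    rw [CT.Dg, ok.pu.deg h 3 hn, dg_td ok ht]
  have pr : ∀ b, T.int V (td4 (tr T h.hol) * T.pull h.hol b) =
      T.int Y (T.push π (td4 (tr T h.hol)) * b) := fun b => by
    rw [← ok.pu.proj h, ok.pu.int h]
  have k0 := fun L hL nL => (pr _).symm.trans
    (g T hT h hn hy (by omega) (fa_of ok hV) (fa_of ok hY) hc L hL nL)
  rw [pr]
  generalize T.push π (td4 (tr T h.hol)) = P at k0 dP ⊢
  have k1 : cX T Y ^ k * P = 0 := by
    refine Qs.pd_dg (Ma.ga_ok ok Y ((ok.po.kah Y).2 ⟨_, kY⟩))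
      (ok.rg.dg_mul Y _ _ _ _ (Ma.dg_pow ok (dg_cX ok Y) k) dP) hy.symm fun a ha => ?_
    change T.int Y _ = 0
    have hs := gen a ha
    clear ha
    induction hs using Submodule.span_induction with
    | mem c hc =>
      obtain ⟨L, h1, h2, rfl⟩ := hc
      refine lin (T.int Y) hk fun q => ?_
      have e := ok.c1.pow Y L q h1
      exact e ▸ k0 _ (lb_pow h1 q) (e ▸ nn_smul ok h2 (Nat.cast_nonneg q))
    | zero => rw [mul_zero, map_zero]
    | add u v _ _ hu hv => rw [mul_add, map_add, hu, hv, add_zero]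
    | smul r u _ hu => rw [mul_smul_comm, map_smul, hu, smul_zero]
  rw [(ok.ho.hl kY 1 k (by omega)).1 P dP k1, zero_mul, map_zero]

/-- a nef line bundle on the base in the class of a multiple of `H i` -/
theorem exL (hT : T.OK) (B : Bas T V) {i j : B.J} (ne : i ≠ j) :
    ∃ (L : Bd (B.Q {j}).Y.X) (r : ℝ), IsLB (B.Q {j}).y L ∧
      T.Nn (B.Q {j}).Y (T.c1 (B.Q {j}).Y L) ∧ r ≠ 0 ∧
      T.pull (B.Q {j}).sub.hol (T.c1 (B.Q {j}).Y L) = r • B.H i := by
  let Q := B.Q {j}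
  let Q' := B.Q {i}ᶜ
  have e1 : ∀ x, Q'.π (Function.surjInv Q.onto (Q.π x)) = Q'.π x := fun x =>
    (Q'.rel _ _).2 (((Q.rel _ _).1 (Function.surjInv_eq Q.onto _)).mono
      fun _ _ ⟨l, hl, k⟩ => ⟨l, fun e => ne (e.symm.trans hl), k⟩)
  have e2 : (fun x => Q'.π (Function.surjInv Q.onto (Q.π x))) = Q'.π := funext e1
  have hq : HolM Q.y Q'.y fun b => Q'.π (Function.surjInv Q.onto b) := fun b => by
    obtain ⟨x, rfl⟩ := Q.onto b
    exact (Q.sub.sbm x).desc (Q.sub.hol.at x) (g := fun b => Q'.π (Function.surjInv Q.onto b))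
      (e2.symm ▸ Q'.sub.hol.at x)
  have lK := Rh.lb_inv (lb_can Q'.Y)
  have kK := ((fano_iff hT Q'.Y).1 (B.cls _).1).2
  have e3 := (hT.c1.pull hq _ lK).trans (congrArg _ (c1_acan hT Q'.Y))
  have e4 : T.pull Q.sub.hol (T.pull hq (cX T Q'.Y)) = T.pull Q'.sub.hol (cX T Q'.Y) :=
    (hT.rg.pull_comp Q.sub.hol hq Q'.sub.hol (fun x => (e1 x).symm) _).symm
  have e5 : ∀ a, T.Dg Q'.Y 1 a →
      T.pull Q'.sub.hol a = (B.F i).dg (T.pull Q'.sub.hol a) • B.H i := fun a ha =>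
    (B.span _ (Ma.dg_pull hT Q'.sub.hol ha)).trans (Fintype.sum_eq_single i fun l hl => by
      rw [Q'.dg_pull hT (j := l) hl ha, zero_smul])
  obtain ⟨w, kw, ew⟩ := B.pH i
  obtain ⟨c, -, kc⟩ := hT.po.opn kK (-w) (neg_mem (nn_ty hT (kc_nn hT kw)))
    ((map_neg _ _).trans (congrArg _ (hT.po.deg kw)))
  refine ⟨_, _, hq.lb lK, ?_, fun e => ?_,
    (congrArg _ e3).trans (e4.trans (e5 _ (dg_cX hT _)))⟩
  · exact (congrArg (T.Nn Q.Y) e3).mpr (hT.po.mono (hT.po.pull hq kK) fun _ => le_top)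
  · have k := (B.F i).dg_nn hT (a := T.pull Q'.sub.hol _)
      (hT.po.mono (hT.po.pull Q'.sub.hol kc) fun _ => le_top)
    rw [map_add, map_smul, map_neg, map_add, map_smul, map_neg, e, ← ew, B.dual, if_pos rfl] at k
    norm_num at k

end Cm3gH

open Cm3gH

/-- **CM3G** -/
theorem cm3g_of (g : GRRL) : CM3G := by
  intro T th n V B cls hn j pos dj
  have hT := th.ok
  obtain ⟨cV, kV⟩ := (fano_iff hT V).1 cls.1
  have fa := fax T hT B.F j (B.Q {j}) cV
  have dim := (B.Q {j}).dim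
  have hm : (B.F j).m = 1 ∨ (B.F j).m = 2 := by
    have h1 := rd _ _ _ _ _ _ fa
    omega
  refine cm_cast ?_ dj
  rcases hm with hm | hm
  · intro k z hk hz
    refine cmq _ _ _ _ (fa_cast fa hm dj rfl) k z hk hz ?_
    obtain ⟨b, rfl⟩ := ((B.Q {j}).s4 z).1 (by rintro _ rfl; exact hz.2)
    refine td0 g th (k := k - 1) (by omega) (by omega) (by omega) (B.Q {j}).sub cls.1
      (B.cls {j}).1 (B.Q {j}).fib fa.dt (fun a ha => ?_) b
    have ex : ∀ i, ∃ u ∈ Submodule.span ℝ {c | ∃ L, IsLB (B.Q {j}).y L ∧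
        T.Nn (B.Q {j}).Y (T.c1 _ L) ∧ T.c1 _ L = c}, T.pull (B.Q {j}).sub.hol u =
          (B.F i).dg (T.pull (B.Q {j}).sub.hol a) • B.H i := fun i => by
      by_cases e : i = j
      · exact ⟨0, zero_mem _, by rw [e, (B.Q {j}).dg_pull hT rfl ha, zero_smul, map_zero]⟩
      obtain ⟨L, r, h1, h2, h3, h4⟩ := exL hT B e
      exact ⟨(_ / r) • _, Submodule.smul_mem _ _ (Submodule.subset_span ⟨L, h1, h2, rfl⟩), by
        rw [map_smul, h4, smul_smul, div_mul_cancel₀ _ h3]⟩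
    choose u hu eu using ex
    rw [sub_eq_zero.1 (pull_inj hT (B.Q {j}).sub dim (B.Q {j}).onto ((B.Q {j}).conn cV)
      ((hT.po.kah V).2 ⟨_, kV⟩) (b := a - ∑ i, u i) (by
        rw [map_sub, map_sum, sub_eq_zero, Finset.sum_congr rfl fun i _ => eu i]
        exact B.span _ (Ma.dg_pull hT _ ha)))]
    exact Submodule.sum_mem _ fun i _ => hu i
  · exact cm3 _ _ _ _ (fa_cast fa hm dj rfl)

end Vale.Agent.P280X.R3
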