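import Vale.Agent.P280X.R3.Defs
import Vale.Agent.P280Z.Pr.D2
import Vale.Agent.P280Z.Pr.Fax
import Vale.Agent.P280Z.Pr.Rd
import Vale.Agent.P280Z.Pr.Posj
import Vale.Agent.P280Z.Pr.Hr6
import Vale.Agent.P280Z.Pr.Adjf
import Vale.Agent.P280Z.Pr.Prj
import Vale.Agent.P280Z.Pr.K226

/-!
# P280X, block R3: three families on an eightfold
-/

open Set
open Vale.Agent.P272.K Vale.Agent.P285.H281.FD Vale.Agent.P281Z
open Vale.Agent.P280Z Vale.Agent.P280Z.Rh Vale.Agent.P280Z.Pr Vale.Agent.P280Z.Ma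

noncomputable section

namespace Vale.Agent.P280X.R3

namespace K2H

variable {T : CT} {V : Mf 8} {B : Bas T V} {i j k : B.J}

/-- three families -/
structure Thr (B : Bas T V) (j i k : B.J) : Prop where
  th : Th T
  cls : Cls 8 V
  ji : j ≠ i
  jk : j ≠ k
  ik : i ≠ k
  all : ∀ l, l = j ∨ l = i ∨ l = k
  pos : ∀ l, 0 < (B.F l).m
  d : ∀ l, (B.Q {l}).d = 2

theorem Thr.s1 (h : Thr B j i k) : Thr B i j k :=
  ⟨h.th, h.cls, h.ji.symm, h.ik, h.jk, fun l => or_left_comm.1 (h.all l), h.pos, h.d⟩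

theorem Thr.s2 (h : Thr B j i k) : Thr B j k i :=
  ⟨h.th, h.cls, h.jk, h.ji, h.ik.symm, fun l => (h.all l).imp_right Or.symm, h.pos, h.d⟩

theorem Thr.univ (h : Thr B j i k) : (Finset.univ : Finset B.J) = {j, i, k} :=
  Finset.ext fun l => by simpa using h.all l

theorem Thr.sum (h : Thr B j i k) (f : B.J → T.H V) : ∑ l, f l = f j + (f i + f k) := by
  rw [h.univ, Finset.sum_insert (by simp [h.ji, h.jk]), Finset.sum_pair h.ik]

theorem Thr.prod (h : Thr B j i k) : ∏ l, B.H l = B.H j * (B.H i * B.H k) := by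
  rw [h.univ, Finset.prod_insert (by simp [h.ji, h.jk]), Finset.prod_pair h.ik]

theorem Thr.dg (h : Thr B j i k) (l : B.J) : T.Dg V 1 (B.H l) := h.th.ok.po.deg (B.nn l)

theorem Thr.y (h : Thr B j i k) (l : B.J) : (B.Q {l}).y = 6 := by
  have := (B.Q {l}).dim
  have := h.d l
  omega

theorem Thr.fa (h : Thr B j i k) : (B.F j).m = 1 ∧
    FA (nsm (B.F j)) 8 1 2 6 (tr T (B.Q {j}).sub.hol) := by
  have f0 := fax T h.th.ok B.F j (B.Q {j}) h.cls.1.1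
  have hm : (B.F j).m = 1 := by
    have := rd _ _ _ _ _ _ f0
    have := h.pos j
    have := h.d j
    omega
  exact ⟨hm, K226H.fa_cast f0 hm (h.d j) (h.y j)⟩

theorem Thr.ex (h : Thr B j i k) :
    ∃ w, T.Dg (B.Q {j}).Y 1 w ∧ B.H i = T.pull (B.Q {j}).sub.hol w :=
  (B.Q {j}).ex1 h.th.ok (h.dg i) fun l hl => by rw [mem_singleton_iff.1 hl, B.dual, if_neg h.ji]

theorem Thr.iv (h : Thr B j i k) (a b : ℝ) (c e f : ℕ) :
    Iv (nsm (B.F j)) (c + (e + f)) ((a • B.H i + b • B.H k) ^ c * (B.H i ^ e * B.H k ^ f)) := by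
  have hT := h.th.ok
  obtain ⟨w, w1, w2⟩ := h.ex
  obtain ⟨w', w3, w4⟩ := h.s2.ex
  have w5 : T.Dg (B.Q {j}).Y 1 (a • w + b • w') := by
    rw [CT.Dg, map_add, map_smul, map_smul, w1, w3]
  rw [w2, w4, ← map_smul, ← map_smul, ← map_add, ← map_pow, ← map_pow, ← map_pow, ← map_mul,
    ← map_mul]
  exact ⟨dg_pull hT _ (hT.rg.dg_mul _ _ _ _ _ (dg_pow hT w5 c)
    (hT.rg.dg_mul _ _ _ _ _ (dg_pow hT w1 e) (dg_pow hT w3 f))),
    ((B.Q {j}).s4 _).2 ⟨_, rfl⟩ j rfl⟩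

theorem Thr.van (h : Thr B j i k) (e f : ℕ) (hk : 6 < e + f) : B.H i ^ e * B.H k ^ f = 0 := by
  have := h.fa.2.van _ _ (by omega) (h.iv 0 0 0 e f)
  rwa [pow_zero, one_mul] at this

theorem Thr.yb (h : Thr B j i k) : 2 ≤ (B.Q {j}ᶜ).y ∧ (B.Q {j}ᶜ).y ≤ 4 := by
  have D := dimj_of posj T h.th.ok B h.cls.1.1
  have h1 := D {j}ᶜ j (by simp)
  have h2 := D {i} k (by simp [h.ik.symm])
  have e : ({j}ᶜ : Set B.J) = insert k {i} := by
    ext l
    rcases h.all l with rfl | rfl | rfl <;> simp [h.ji, h.jk, h.ji.symm, h.jk.symm]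
  rw [← e, h.d, h.y] at h2
  rw [h.d] at h1
  omega

theorem Thr.pw (h : Thr B j i k) {c : ℕ} (hc : (B.Q {j}ᶜ).y < c) : B.H j ^ c = 0 :=
  (B.Q {j}ᶜ).pow_zero' h.th.ok (h.dg j) (fun l hl => by rw [B.dual, if_neg (show l ≠ j from hl)]) hc

theorem Thr.p5 (h : Thr B j i k) : B.H j ^ 5 = 0 := h.pw (by have := h.yb; omega)

/-- the intersection numbers -/
def N (B : Bas T V) (u v : B.J) : ℝ := T.int V ((∏ l, B.H l) ^ 2 * (B.H u * B.H v))

theorem N_comm (u v : B.J) : N B u v = N B v u := by rw [N, N, mul_comm (B.H u)]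

theorem Thr.posj (h : Thr B j i k) :
    0 < T.int V ((B.H i + B.H k) ^ (B.Q {j}ᶜ).d * B.H j ^ (B.Q {j}ᶜ).y) := by
  have p := (Pr.posj T h.th.ok B h.cls.1.1 {j}ᶜ).2
  rw [Pr.hS, Pr.hS, h.sum, h.sum] at p
  simpa only [mem_singleton_iff, mem_compl_iff, h.ji.symm, h.jk.symm, if_true, if_false, not_true,
    not_false_iff, add_zero, zero_add] using p

theorem Thr.y3 (h : Thr B j i k) (hy : (B.Q {j}ᶜ).y = 3) : 0 < N B j i + N B j k := by
  have p := h.posj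
  have hd : (B.Q {j}ᶜ).d = 5 := by have := (B.Q {j}ᶜ).dim; omega
  rw [hy, hd, show (B.H i + B.H k) ^ 5 * B.H j ^ 3 =
    (10 : ℝ) • ((∏ l, B.H l) ^ 2 * (B.H j * B.H i) + (∏ l, B.H l) ^ 2 * (B.H j * B.H k)) by
      rw [h.prod]
      linear_combination (norm := algebra) B.H j ^ 3 * h.s1.p5 + B.H j ^ 3 * h.s2.s1.p5 +
        5 * B.H k * h.s2.s1.van 3 4 (by omega) + 5 * B.H i * h.s1.van 3 4 (by omega),
    map_smul, map_add, smul_eq_mul] at p
  exact (mul_pos_iff_of_pos_left (by norm_num)).1 p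

theorem Thr.y4 (h : Thr B j i k) (hy : (B.Q {j}ᶜ).y = 4) : 0 < N B j j := by
  have p := h.posj
  have hd : (B.Q {j}ᶜ).d = 4 := by have := (B.Q {j}ᶜ).dim; omega
  rw [hy, hd, show (B.H i + B.H k) ^ 4 * B.H j ^ 4 =
    (6 : ℝ) • ((∏ l, B.H l) ^ 2 * (B.H j * B.H j)) by
      rw [h.prod]
      linear_combination (norm := algebra) (B.H i + 4 * B.H k) * h.s2.s1.van 4 3 (by omega) +
        (B.H k + 4 * B.H i) * h.s1.van 4 3 (by omega),
    map_smul, smul_eq_mul] at p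
  exact (mul_pos_iff_of_pos_left (by norm_num)).1 p

/-- the relations given by the family `j` -/
theorem Thr.half (hC : C236G) (h : Thr B j i k) : ∃ a b : ℝ, b * N B i i = 0 ∧ a * N B k k = 0 ∧
    N B j i = a * N B i i + b * N B i k ∧ N B j k = a * N B i k + b * N B k k ∧
    (B.H j ^ 4 = 0 → N B j i * N B j k = 0) ∧
    (a = 0 → b = 0 → T.push (B.Q {j}).π (B.H j ^ 2) = 1) := by
  have hT := h.th.ok
  obtain ⟨hm, f1⟩ := h.fa
  have pl := pl2_of fax g2 (g3x_of adjf) T h.th V B h.cls j hm (h.d j)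
  have f2 := (congrArg (fun y => Pl (nsm (B.F j)) y (tr T (B.Q {j}).sub.hol)) (h.y j)).mp pl.1
  have f3 := cm2 _ _ _ _ f1 f2
  obtain ⟨a, b, t1⟩ : ∃ a b : ℝ, tr T (B.Q {j}).sub.hol 1 =
      3 * B.H j - (1 : ℝ) • (a • B.H i + b • B.H k) := by
    refine ⟨-(B.F i).dg (tr T (B.Q {j}).sub.hol 1), -(B.F k).dg (tr T (B.Q {j}).sub.hol 1), ?_⟩
    have e : (B.F j).dg (tr T (B.Q {j}).sub.hol 1) = 3 := by
      rw [tr, map_sub, (B.F j).c1, (B.Q {j}).dg_pull hT rfl (hT.ch.deg _ _ 1), hm]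
      norm_num
    have e' := B.span _ (f1.dt 1)
    rw [h.sum, e] at e'
    refine e'.trans ?_
    algebra
  have c : ∀ e f, e + f = 5 → T.int V (B.H i ^ e * B.H k ^ f *
      (B.H j ^ 2 * (B.H j - (1 : ℝ) • (a • B.H i + b • B.H k)))) = 0 := fun e f hf =>
    K226H.cube (T.int V) (f1.van _ _ (by omega) (h.iv a b 2 e f)) (by
      have k := h.iv 0 0 0 e f
      rw [pow_zero, one_mul] at k
      exact t1 ▸ f3 _ _ (by omega) k)
  have u5 := h.s1.p5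
  have v5 := h.s2.s1.p5
  have xu := h.s2.s1.van 3 4 (by omega)
  have xv := h.s1.van 3 4 (by omega)
  have c1 := c 4 1 rfl
  have c2 := c 1 4 rfl
  have c3 := c 3 2 rfl
  have c4 := c 2 3 rfl
  have W := h.prod
  have tr' : ∀ {z z' : T.H V}, T.int V z = 0 → z = z' → T.int V z' = 0 := fun a b => b ▸ a
  replace c1 := tr' (z' := (-b) • ((∏ l, B.H l) ^ 2 * (B.H i * B.H i))) c1 (by
    rw [W]
    linear_combination (norm := algebra) B.H k * xu - a • (B.H j ^ 2 * B.H k) * u5)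
  replace c2 := tr' (z' := (-a) • ((∏ l, B.H l) ^ 2 * (B.H k * B.H k))) c2 (by
    rw [W]
    linear_combination (norm := algebra) B.H i * xv - b • (B.H j ^ 2 * B.H i) * v5)
  replace c3 := tr' (z' := (∏ l, B.H l) ^ 2 * (B.H j * B.H i) -
    a • ((∏ l, B.H l) ^ 2 * (B.H i * B.H i)) - b • ((∏ l, B.H l) ^ 2 * (B.H i * B.H k))) c3 (by
      rw [W]; algebra)
  replace c4 := tr' (z' := (∏ l, B.H l) ^ 2 * (B.H j * B.H k) -
    a • ((∏ l, B.H l) ^ 2 * (B.H i * B.H k)) - b • ((∏ l, B.H l) ^ 2 * (B.H k * B.H k))) c4 (by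
      rw [W]; algebra)
  simp only [map_sub, map_smul, smul_eq_mul] at c1 c2 c3 c4
  change -b * N B i i = 0 at c1
  change -a * N B k k = 0 at c2
  change N B j i - a * N B i i - b * N B i k = 0 at c3
  change N B j k - a * N B i k - b * N B k k = 0 at c4
  refine ⟨a, b, by linarith, by linarith, by linarith, by linarith, fun x4 => ?_, fun ha hb => ?_⟩
  · have un : Un (nsm (B.F j)) (B.H j) := ⟨h.dg j, by
      have := (B.F j).hdg _ (h.dg j)
      rwa [B.dual, if_pos rfl, map_one] at this⟩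
    have g : ∀ e f, e + f = 2 → T.int V (B.H j ^ 2 * (a • B.H i + b • B.H k) ^ 4 *
        (B.H i ^ e * B.H k ^ f)) = 0 := fun e f hf => by
      have k := h.iv 0 0 0 e f
      rw [pow_zero, one_mul] at k
      have k' := hC _ _ _ _ f1 f2 _ un x4 _ _ k (by omega)
      rwa [t1, sub_sub_cancel, one_smul] at k'
    have g1 := g 2 0 rfl
    have g2 := g 1 1 rfl
    have g3 := g 0 2 rfl
    replace g1 := tr' (z' := (b ^ 4) • ((∏ l, B.H l) ^ 2 * (B.H k * B.H k)) +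
      (4 * a * b ^ 3) • ((∏ l, B.H l) ^ 2 * (B.H i * B.H k)) +
      (6 * a ^ 2 * b ^ 2) • ((∏ l, B.H l) ^ 2 * (B.H i * B.H i))) g1 (by
      rw [W]
      linear_combination (norm := algebra)
        ((4 * a ^ 3 * b) • (B.H j ^ 2 * B.H k) + (a ^ 4) • (B.H j ^ 2 * B.H i)) * u5)
    replace g2 := tr' (z' := (4 * a * b ^ 3) • ((∏ l, B.H l) ^ 2 * (B.H k * B.H k)) +
      (6 * a ^ 2 * b ^ 2) • ((∏ l, B.H l) ^ 2 * (B.H i * B.H k)) +
      (4 * a ^ 3 * b) • ((∏ l, B.H l) ^ 2 * (B.H i * B.H i))) g2 (by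
      rw [W]
      linear_combination (norm := algebra)
        (a ^ 4) • (B.H j ^ 2 * B.H k) * u5 + (b ^ 4) • (B.H j ^ 2 * B.H i) * v5)
    replace g3 := tr' (z' := (6 * a ^ 2 * b ^ 2) • ((∏ l, B.H l) ^ 2 * (B.H k * B.H k)) +
      (4 * a ^ 3 * b) • ((∏ l, B.H l) ^ 2 * (B.H i * B.H k)) +
      (a ^ 4) • ((∏ l, B.H l) ^ 2 * (B.H i * B.H i))) g3 (by
      rw [W]
      linear_combination (norm := algebra)
        ((4 * a * b ^ 3) • (B.H j ^ 2 * B.H i) + (b ^ 4) • (B.H j ^ 2 * B.H k)) * v5)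
    simp only [map_add, map_smul, smul_eq_mul] at g1 g2 g3
    change b ^ 4 * N B k k + 4 * a * b ^ 3 * N B i k + 6 * a ^ 2 * b ^ 2 * N B i i = 0 at g1
    change 4 * a * b ^ 3 * N B k k + 6 * a ^ 2 * b ^ 2 * N B i k + 4 * a ^ 3 * b * N B i i = 0 at g2
    change 6 * a ^ 2 * b ^ 2 * N B k k + 4 * a ^ 3 * b * N B i k + a ^ 4 * N B i i = 0 at g3
    have q1 : a * b * N B i k = 0 := (pow_eq_zero_iff (n := 2) (by norm_num)).1 (by
      linear_combination (N B i k / 6) * g2 + (2 / 3 * b ^ 3 * N B i k) * c2 +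
        (2 / 3 * a ^ 3 * N B i k) * c1)
    have q2 : b * N B k k = 0 := (pow_eq_zero_iff (n := 4) (by norm_num)).1 (by
      linear_combination N B k k ^ 3 * g1 - 4 * b ^ 2 * N B k k ^ 3 * q1 +
        6 * a ^ 2 * b * N B k k ^ 3 * c1)
    have q3 : a * N B i i = 0 := (pow_eq_zero_iff (n := 4) (by norm_num)).1 (by
      linear_combination N B i i ^ 3 * g3 - 4 * a ^ 2 * N B i i ^ 3 * q1 +
        6 * a * b ^ 2 * N B i i ^ 3 * c2)
    rw [show N B j i = b * N B i k by linarith, show N B j k = a * N B i k by linarith]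
    linear_combination N B i k * q1
  · have k' := pl.2
    rw [t1, ha, hb, show (3 * B.H j - (1 : ℝ) • ((0 : ℝ) • B.H i + (0 : ℝ) • B.H k)) ^ 2 =
      (9 : ℝ) • B.H j ^ 2 by algebra, map_smul, show (9 : T.H (B.Q {j}).Y) = (9 : ℝ) • 1 by
        algebra] at k'
    exact smul_right_injective _ (by norm_num : (9 : ℝ) ≠ 0) k'

theorem Thr.no3 (hC : C236G) (h : Thr B j i k) (hy : (B.Q {j}ᶜ).y = 3) : False := by
  have p := h.y3 hy
  have x4 := h.pw (c := 4) (by omega)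
  have p0 : N B j j = 0 := by
    rw [N, h.prod, show (B.H j * (B.H i * B.H k)) ^ 2 * (B.H j * B.H j) =
      B.H j ^ 4 * (B.H i * B.H k) ^ 2 by ring, x4, zero_mul, map_zero]
  obtain ⟨-, -, -, -, -, -, a, -⟩ := h.half hC
  obtain ⟨a1, b1, -, -, -, c1, -⟩ := h.s1.s2.half hC
  obtain ⟨a2, b2, -, -, -, c2, -⟩ := h.s2.s1.s2.half hC
  rw [N_comm i j, N_comm k j, p0] at c1
  rw [N_comm k j, N_comm i j, p0] at c2
  rcases mul_eq_zero.1 (a x4) with e | e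
  · rw [e] at c2 p
    linarith
  · rw [e] at c1 p
    linarith

theorem hr6' {y : ℕ} (hT : T.OK) (Y : Mf y) (hy : y = 6) (x h : T.H Y) (h1 : T.Nn Y x)
    (h2 : T.Nn Y h) (h3 : ∀ s t : ℝ, 0 < s → 0 < t → T.Kc Y (s • x + t • h))
    (h4 : ∀ a, T.Dg Y 1 a → ∃ s t : ℝ, a = s • x + t • h) (h5 : x ^ 5 = 0) (h6 : h ^ 5 = 0)
    (h7 : 0 < T.int Y (x ^ 2 * h ^ 4)) (h8 : 0 < T.int Y (x ^ 4 * h ^ 2)) :
    T.int Y (x ^ 3 * h ^ 3) ≠ 0 := by
  subst hy
  exact hr6 T hT Y x h h1 h2 h3 h4 h5 h6 h7 h8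

theorem Thr.no4 (hC : C236G) (h : Thr B j i k) (hj : (B.Q {j}ᶜ).y = 4) (hi : (B.Q {i}ᶜ).y = 4)
    (hk : (B.Q {k}ᶜ).y = 4) : False := by
  have hT := h.th.ok
  have pj := h.y4 hj
  have pi := h.s1.y4 hi
  have pk := h.s2.s1.y4 hk
  obtain ⟨a, b, c1, c2, -, -, -, c3⟩ := h.half hC
  obtain ⟨a', b', d1, d2, -, d3, -⟩ := h.s1.half hC
  have e := c3 ((mul_eq_zero.1 c2).resolve_right pk.ne') ((mul_eq_zero.1 c1).resolve_right pi.ne')
  rw [(mul_eq_zero.1 d1).resolve_right pj.ne', (mul_eq_zero.1 d2).resolve_right pk.ne', zero_mul,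
    zero_mul, add_zero] at d3
  obtain ⟨w, w1, w2⟩ := h.ex
  obtain ⟨w', w3, w4⟩ := h.s2.ex
  have cV := h.cls.1.1
  have cY := (B.Q {j}).conn cV
  have kV : V.Kah := (hT.po.kah V).2 ⟨_, ((fano_iff hT V).1 h.cls.1).2⟩
  have inj := fun b => pull_inj hT (B.Q {j}).sub (B.Q {j}).dim (B.Q {j}).onto cY kV (b := b)
  have nn := fun b => nn_desc hT (B.Q {j}).sub (B.Q {j}).dim (B.Q {j}).onto cY kV (b := b)
  have it : ∀ z, T.int (B.Q {j}).Y z = T.int V (B.H j ^ 2 * T.pull (B.Q {j}).sub.hol z) :=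
    fun z => by rw [← hT.pu.int (B.Q {j}).sub, hT.pu.proj (B.Q {j}).sub, e, one_mul]
  have im : ∀ c f u v, B.H j ^ 2 * (B.H i ^ c * B.H k ^ f) =
      (B.H j * (B.H i * B.H k)) ^ 2 * (B.H u * B.H v) →
      T.int (B.Q {j}).Y (w ^ c * w' ^ f) = N B u v := fun c f u v hh => by
    rw [it, map_mul (T.pull _), map_pow (T.pull _), map_pow (T.pull _), ← w2, ← w4, hh, N, h.prod]
  refine hr6' hT (B.Q {j}).Y (h.y j) w w' (nn _ w1 (w2 ▸ B.nn i)) (nn _ w3 (w4 ▸ B.nn k))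
    (fun s t hs ht => B.kcY _ _ (by rw [CT.Dg, map_add, map_smul, map_smul, w1, w3])
      fun l hl => ?_) (fun z hz => ⟨(B.F i).dg (T.pull (B.Q {j}).sub.hol z),
        (B.F k).dg (T.pull (B.Q {j}).sub.hol z), sub_eq_zero.1 (inj _ ?_)⟩)
    (inj _ (by rw [map_pow, ← w2, h.s1.p5])) (inj _ (by rw [map_pow, ← w4, h.s2.s1.p5]))
    (by rwa [im 2 4 k k (by ring)]) (by rwa [im 4 2 i i (by ring)]) (by rwa [im 3 3 i k (by ring)])
  · rw [map_add, map_smul, map_smul, ← w2, ← w4, map_add, map_smul, map_smul, B.dual, B.dual]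
    rcases h.all l with rfl | rfl | rfl
    · exact (hl rfl).elim
    · simp [h.ik, hs]
    · simp [h.ik.symm, ht]
  · have e' := B.span _ (dg_pull hT (B.Q {j}).sub.hol hz)
    rw [h.sum, (B.Q {j}).dg_pull hT rfl hz, zero_smul, zero_add] at e'
    rw [map_sub, map_add, map_smul, map_smul, ← w2, ← w4, ← e', sub_self]

end K2H

open K2H in
/-- row K2228 -/
theorem k2228_of (hC : C236G) : K2228 := by
  intro T th V B cl i j k ij ik jk all pos d
  have h : Thr B i j k := ⟨th, cl, ij, ik, jk, all, pos, d⟩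
  by_contra hn
  have n2 : ∀ l, (B.Q {l}ᶜ).y ≠ 2 := fun l e => hn ⟨l, e⟩
  have b1 := h.yb
  have b2 := h.s1.yb
  have b3 := h.s2.s1.yb
  have c1 : (B.Q {i}ᶜ).y ≠ 3 := fun e => h.no3 hC e
  have c2 : (B.Q {j}ᶜ).y ≠ 3 := fun e => h.s1.no3 hC e
  have c3 : (B.Q {k}ᶜ).y ≠ 3 := fun e => h.s2.s1.no3 hC e
  have := n2 i
  have := n2 j
  have := n2 k
  exact h.no4 hC (by omega) (by omega) (by omega)

end Vale.Agent.P280X.R3
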