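import Vale.Agent.P280X.R3.Spl
import Vale.Agent.P280X.R3.Grrlb
import Vale.Agent.P280X.R3.Cm3g
import Vale.Agent.P280X.R3.C236b
import Vale.Agent.P280X.R3.K2228

/-!
# P280X, block R3: the assembly of the rows
-/

open Vale.Agent.P280Z

namespace Vale.Agent.P280X.R3

theorem cm3g : CM3G := cm3g_of (grrlb_of (Pr.h0p_of Po.desc))

theorem spl : SPL := spl_of cm3g (k2228_of c236b)

end Vale.Agent.P280X.R3
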