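import Vale.Agent.P280X.R3.Defs
import Vale.Agent.P280X.G7.Grr

/-!
# P280X, block R3: row GRRL
-/

open scoped Manifold ContDiff Topology Matrix
open Set Filter
open Vale.Agent.P272.K Vale.Agent.P285.H281.FD Vale.Agent.P281Z Vale.Agent.P280Z
open Vale.Agent.P277.HD (pull)
open Vale.Agent.P277 (Bd.inv)
open Vale.Agent.P280Z.Rh Vale.Agent.P280Z.Ma Vale.Agent.P280Z.Pr
open Vale.Agent.P280Z.Gm (Fa)
open Vale.Agent.P280Z.Hr (tdx coeff_td)
open Vale.Agent.P280X.G7.GrrH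

noncomputable section

namespace Vale.Agent.P280X.R3

namespace GrrlH

variable {T : CT} {n y : ℕ} {V : Mf n} {Y : Mf y} {π : V.X → Y.X}

theorem dgx (hT : T.OK) {l : T.H Y} (hl : T.Nn Y l) : T.Dg Y 1 (cX T Y + (2 : ℝ) • l) := by
  have h1 : T.pr Y 1 (cX T Y) = _ := dg_cX hT Y
  have h2 : T.pr Y 1 l = _ := hT.po.deg hl
  rw [CT.Dg, map_add, map_smul, h1, h2]

theorem kill (hT : T.OK) (h : Sub n y π) {x : T.H Y} (hx : T.Dg Y 1 x) (k l : ℕ)
    (hk : y < k + l) : T.pull h.hol x ^ k * T.pull h.hol (T.ps Y (VB.tan y Y.X) l) = 0 := by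
  rw [← map_pow, ← map_mul]
  exact big hT h (k + l) _ hk (hT.rg.dg_mul _ _ _ _ _ (dg_pow hT hx k) (hT.ch.deg _ _ l))

theorem rrl (hH : H0P) (th : Th T) (h : Sub n y π) (fV : Fa T V) (fY : Fa T Y)
    (hc : ∀ b, IsConnected (π ⁻¹' {b})) {L : Bd Y.X} (hL : IsLB y L) (hn : T.Nn Y (T.c1 Y L))
    (k : ℕ) : T.RR V (T.pull h.hol ((k : ℝ) • cX T Y + (2 * k + 1 : ℝ) • T.c1 Y L)) =
      T.RR Y ((k : ℝ) • cX T Y + (2 * k + 1 : ℝ) • T.c1 Y L) := by
  have hT := th.ok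
  have kY : T.Kc Y (cX T Y) := by rw [cX, hT.ch.tan]; exact fY
  have l0 := lb_pow (lb_inv (lb_can Y)) k
  have l2 := lb_pow hL (2 * k + 1)
  have l1 := lb_mul l0 l2
  have c1 : T.c1 Y (((Bd.inv (Bd.can y Y.X)).pow k).mul (L.pow (2 * k + 1))) =
      (k : ℝ) • cX T Y + (2 * k + 1 : ℝ) • T.c1 Y L := by
    rw [hT.c1.mul Y _ _ l0 l2, hT.c1.pow Y _ k (lb_inv (lb_can Y)), c1_acan hT,
      hT.c1.pow Y _ _ hL]
    push_cast
    rfl
  have c2 := hT.c1.pull h.hol _ l1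
  have n1 : T.Nn Y ((k : ℝ) • cX T Y + (2 * k + 1 : ℝ) • T.c1 Y L) :=
    nn_add hT (nn_smul hT (kc_nn hT kY) (Nat.cast_nonneg k)) (nn_smul hT hn (by positivity))
  rw [← c1, ← c2, ← th.hrr V _ (h.hol.lb l1), ← th.hrr Y _ l1, hH π _ h hc l1]
  · rw [Ld.Ap, c1, sub_eq_neg_add]
    exact kc_add hT fY n1
  · rw [Ld.Ap, c2, c1, sub_eq_neg_add]
    exact kc_add hT fV (nn_pull hT h.hol n1)

theorem shY (k : ℝ) (l : T.H Y) :
    k • cX T Y + (2 * k + 1) • l + (1 / 2 : ℝ) • T.ps Y (VB.tan y Y.X) 1 =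
      (k + 1 / 2) • (cX T Y + (2 : ℝ) • l) := by
  rw [cX]
  module

theorem shV (h : Sub n y π) (k : ℝ) (l : T.H Y) :
    T.pull h.hol (k • cX T Y + (2 * k + 1) • l) + (1 / 2 : ℝ) • T.ps V (VB.tan n V.X) 1 =
      (k + 1 / 2) • T.pull h.hol (cX T Y + (2 : ℝ) • l) + (1 / 2 : ℝ) • tr T h.hol 1 := by
  rw [← map_smul, ← shY, map_add _ _ ((1 / 2 : ℝ) • _), map_smul, split h 1, smul_add]
  abel

end GrrlH

open GrrlH in
theorem grrl_of (hH : H0P) : GRRL := by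
  intro T th n y k V Y π h hn hy hk fV fY hc L hL nL
  have hT := th.ok
  have dx := dgx hT nL
  have key := rrl hH th h fV fY hc hL nL
  rw [map_pow]
  rcases hk with rfl | rfl
  · obtain rfl : y = 4 := hy
    obtain rfl : n = 7 := hn
    simp only [CT.RR] at key
    simp only [coeff_td _ _ (by norm_num : 7 ≤ 9), coeff_td _ _ (by norm_num : 4 ≤ 9), shV h,
      shY] at key
    generalize cX T Y + (2 : ℝ) • T.c1 Y L = x at key dx ⊢
    have x5 : T.pull h.hol x ^ 5 = 0 := by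
      rw [← map_pow]
      exact big hT h 5 _ (by norm_num) (dg_pow hT dx 5)
    obtain ⟨A0, A1, A2, A4, B0, B2, B4, e⟩ : ∃ A0 A1 A2 A4 B0 B2 B4 : ℝ, ∀ k : ℕ,
        A0 + (k + 1 / 2) * A1 + (k + 1 / 2) ^ 2 / 2 * A2 + (k + 1 / 2) ^ 3 / 6 * (1 / 5760 *
          T.int V (td4 (tr T h.hol) * T.pull h.hol x ^ 3)) + (k + 1 / 2) ^ 4 / 24 * A4 =
        B0 + (k + 1 / 2) ^ 2 / 2 * B2 + (k + 1 / 2) ^ 4 / 24 * B4 :=
      ⟨_, _, _, _, _, _, _, fun k => by
      have e2 := key k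
      rw [b4, tay7 x5, split h 2, split h 4,
        four (kill hT h dx 3 2 (by norm_num)) (kill hT h dx 3 4 (by norm_num)), map_add, map_add,
        map_add, map_add, map_add, map_add] at e2
      simpa only [map_smul, smul_eq_mul] using e2⟩
    have e0 := e 0
    have e1 := e 1
    have e2 := e 2
    have e3 := e 3
    have e4 := e 4
    push_cast at e0 e1 e2 e3 e4
    linarith
  · obtain rfl : y = 5 := hy
    obtain rfl : n = 8 := hn
    simp only [CT.RR] at key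
    simp only [coeff_td _ _ (by norm_num : 8 ≤ 9), coeff_td _ _ (by norm_num : 5 ≤ 9), shV h,
      shY] at key
    generalize cX T Y + (2 : ℝ) • T.c1 Y L = x at key dx ⊢
    have x6 : T.pull h.hol x ^ 6 = 0 := by
      rw [← map_pow]
      exact big hT h 6 _ (by norm_num) (dg_pow hT dx 6)
    obtain ⟨A0, A1, A2, A3, A5, B1, B3, B5, e⟩ : ∃ A0 A1 A2 A3 A5 B1 B3 B5 : ℝ, ∀ k : ℕ,
        A0 + (k + 1 / 2) * A1 + (k + 1 / 2) ^ 2 / 2 * A2 + (k + 1 / 2) ^ 3 / 6 * A3 +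
          (k + 1 / 2) ^ 4 / 24 * (1 / 5760 *
          T.int V (td4 (tr T h.hol) * T.pull h.hol x ^ 4)) + (k + 1 / 2) ^ 5 / 120 * A5 =
        (k + 1 / 2) * B1 + (k + 1 / 2) ^ 3 / 6 * B3 + (k + 1 / 2) ^ 5 / 120 * B5 :=
      ⟨_, _, _, _, _, _, _, _, fun k => by
      have e2 := key k
      rw [b5, tay8 x6, split h 2, split h 4,
        four (kill hT h dx 4 2 (by norm_num)) (kill hT h dx 4 4 (by norm_num)), map_add, map_add,
        map_add, map_add, map_add, map_add, map_add] at e2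
      simpa only [map_smul, smul_eq_mul] using e2⟩
    have e0 := e 0
    have e1 := e 1
    have e2 := e 2
    have e3 := e 3
    have e4 := e 4
    have e5 := e 5
    push_cast at e0 e1 e2 e3 e4 e5
    linarith

end Vale.Agent.P280X.R3
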