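import Vale.Agent.P280X.R3.Defs
import Vale.Agent.P280X.G7.Grr66

/-!
# P280X, block R3, row GRRL
-/

open scoped Manifold ContDiff Topology Matrix
open Set Filter
open Vale.Agent.P272.K Vale.Agent.P285.H281.FD Vale.Agent.P281Z Vale.Agent.P280Z
open Vale.Agent.P277.HD (pull)
open Vale.Agent.P277 (Bd.inv)
open Vale.Agent.P280Z.Rh Vale.Agent.P280Z.Ma Vale.Agent.P280Z.Pr
open Vale.Agent.P280Z.Hr (tdx coeff_td)
open Vale.Agent.P280X.G7.G66

noncomputable section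

namespace Vale.Agent.P280X.R3

namespace G66

variable {B : Type} [CommRing B] [Algebra ℝ B]

theorem tay8 {x : B} (h : x ^ 6 = 0) (s : ℝ) (z a b c e : B) :
    tdx (s • x + z) a b c e 8 = tdx z a b c e 8 + s • (x * tdx z a b c e 7) +
      (s ^ 2 / 2) • (x ^ 2 * tdx z a b c e 6) + (s ^ 3 / 6) • (x ^ 3 * tdx z a b c e 5) +
      (s ^ 4 / 24) • (x ^ 4 * tdx z a b c e 4) + (s ^ 5 / 120) • (x ^ 5 * tdx z a b c e 3) := by
  have k : tdx (s • x + z) a b c e 8 = tdx z a b c e 8 + s • (x * tdx z a b c e 7) +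
      (s ^ 2 / 2) • (x ^ 2 * tdx z a b c e 6) + (s ^ 3 / 6) • (x ^ 3 * tdx z a b c e 5) +
      (s ^ 4 / 24) • (x ^ 4 * tdx z a b c e 4) + (s ^ 5 / 120) • (x ^ 5 * tdx z a b c e 3) +
      x ^ 6 * ((s ^ 6 / 720) • tdx z a b c e 2 + (s ^ 7 / 5040) • (x * z) +
        (s ^ 8 / 40320) • x ^ 2) := by
    simp only [tdx]
    algebra
  rw [k, h, zero_mul, add_zero]

theorem base5 (s : ℝ) (x a b c e : B) : tdx (s • x) a b c e 5 =
    s • (x * ((1 / 2 : ℝ) • a ^ 2 + b)) + (s ^ 3 / 6) • (x ^ 3 * a) + (s ^ 5 / 120) • x ^ 5 := by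
  simp only [tdx]
  algebra

end G66

open G66 in
theorem grrl66 (hH : H0P) : GRRL := by
  intro T th n y k V Y π h hn hy hk fV fY hc L lL nL
  have hT := th.ok
  have kY : T.Kc Y (cX T Y) := by rw [cX, hT.ch.tan]; exact fY
  have big : ∀ k a, y < k → T.Dg Y k a → T.pull h.hol a = 0 := fun k a hk ha => by
    rw [← ha, hT.rg.pr_zero _ _ _ hk, map_zero]
  obtain ⟨w, hw⟩ : ∃ w, w = cX T Y + (2 : ℝ) • T.c1 Y L := ⟨_, rfl⟩
  have dw : T.Dg Y 1 w := by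
    rw [hw, CT.Dg, map_add, map_smul, dg_cX hT Y, hT.c1.deg Y L]
  have x4 : T.pull h.hol w ^ (y + 1) = 0 := by
    rw [← map_pow]
    exact big _ _ y.lt_succ_self (dg_pow hT dw _)
  have q2 : ∀ j, 1 < j →
      T.pull h.hol w ^ k * T.pull h.hol (T.ps Y (VB.tan y Y.X) j) = 0 := fun j hj => by
    rw [← map_pow, ← map_mul]
    exact big (k + j) _ (by omega) (hT.rg.dg_mul _ _ _ _ _ (dg_pow hT dw k) (hT.ch.deg _ _ j))
  have p2 : ∀ j, T.ps V (VB.tan n V.X) j =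
      tr T h.hol j + T.pull h.hol (T.ps Y (VB.tan y Y.X) j) := fun j => (sub_add_cancel _ _).symm
  have rr : ∀ i : ℕ, ∃ m, T.RR V (T.pull h.hol m) = T.RR Y m ∧
      m + (1 / 2 : ℝ) • T.ps Y (VB.tan y Y.X) 1 = ((i : ℝ) + 1 / 2) • w ∧
      T.pull h.hol m + (1 / 2 : ℝ) • T.ps V (VB.tan n V.X) 1 =
        ((i : ℝ) + 1 / 2) • T.pull h.hol w + (1 / 2 : ℝ) • tr T h.hol 1 := by
    intro i
    have l0 := lb_pow (lb_inv (lb_can Y)) i
    have l2 := lb_pow lL (2 * i + 1)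
    have l1 := lb_mul l0 l2
    have c1 : T.c1 Y (((Bd.inv (Bd.can y Y.X)).pow i).mul (L.pow (2 * i + 1))) =
        (i : ℝ) • cX T Y + ((2 * i + 1 : ℕ) : ℝ) • T.c1 Y L := by
      rw [hT.c1.mul Y _ _ l0 l2, hT.c1.pow Y _ i (lb_inv (lb_can Y)), c1_acan hT, hT.c1.pow Y _ _ lL]
    have c2 := (hT.c1.pull h.hol _ l1).trans (congrArg _ c1)
    have n1 : T.Nn Y ((i : ℝ) • cX T Y + ((2 * i + 1 : ℕ) : ℝ) • T.c1 Y L) :=
      hT.po.mono (hT.po.add (nn_smul hT (kc_nn hT kY) (Nat.cast_nonneg i))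
        (nn_smul hT nL (Nat.cast_nonneg _))) fun _ => le_top
    have e : (i : ℝ) • cX T Y + ((2 * i + 1 : ℕ) : ℝ) • T.c1 Y L +
        (1 / 2 : ℝ) • T.ps Y (VB.tan y Y.X) 1 = ((i : ℝ) + 1 / 2) • w := by
      rw [hw, cX]
      push_cast
      module
    refine ⟨_, ?_, e, ?_⟩
    · rw [← c2, ← c1, ← th.hrr V _ (h.hol.lb l1), ← th.hrr Y _ l1, hH π _ h hc l1]
      · rw [Ld.Ap, c1, sub_eq_neg_add]
        exact kc_add hT fY n1
      · rw [Ld.Ap, c2, sub_eq_neg_add]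
        exact kc_add hT fV (nn_pull hT h.hol n1)
    · rw [← map_smul, ← e, tr, smul_sub]
      simp only [map_add, map_smul]
      abel
  rw [map_pow, ← hw]
  subst hn hy
  rcases hk with rfl | rfl
  · obtain ⟨A0, A1, A2, A4, B0, B2, B4, e⟩ : ∃ A0 A1 A2 A4 B0 B2 B4 : ℝ, ∀ k : ℕ,
        A0 + (k + 1 / 2) * A1 + (k + 1 / 2) ^ 2 / 2 * A2 + (k + 1 / 2) ^ 3 / 6 * (1 / 5760 *
          T.int V (td4 (tr T h.hol) * T.pull h.hol w ^ 3)) + (k + 1 / 2) ^ 4 / 24 * A4 =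
        B0 + (k + 1 / 2) ^ 2 / 2 * B2 + (k + 1 / 2) ^ 4 / 24 * B4 :=
      ⟨_, _, _, _, _, _, _, fun i => by
      obtain ⟨m, e2, e0, e1⟩ := rr i
      rw [CT.RR, CT.RR, coeff_td _ _ (by norm_num), coeff_td _ _ (by norm_num), e1, e0,
        base, tay x4, p2 2, p2 4, four (q2 2 (by norm_num)) (q2 4 (by norm_num)), map_add, map_add,
        map_add, map_add, map_add (T.int Y), map_add (T.int Y)] at e2
      simpa only [map_smul, smul_eq_mul] using e2⟩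
    have e0 := e 0
    have e1 := e 1
    have e2 := e 2
    have e3 := e 3
    have e4 := e 4
    push_cast at e0 e1 e2 e3 e4
    linarith
  · obtain ⟨A0, A1, A2, A3, A5, B1, B3, B5, e⟩ : ∃ A0 A1 A2 A3 A5 B1 B3 B5 : ℝ, ∀ k : ℕ,
        A0 + (k + 1 / 2) * A1 + (k + 1 / 2) ^ 2 / 2 * A2 + (k + 1 / 2) ^ 3 / 6 * A3 +
          (k + 1 / 2) ^ 4 / 24 * (1 / 5760 * T.int V (td4 (tr T h.hol) * T.pull h.hol w ^ 4)) +
          (k + 1 / 2) ^ 5 / 120 * A5 =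
        (k + 1 / 2) * B1 + (k + 1 / 2) ^ 3 / 6 * B3 + (k + 1 / 2) ^ 5 / 120 * B5 :=
      ⟨_, _, _, _, _, _, _, _, fun i => by
      obtain ⟨m, e2, e0, e1⟩ := rr i
      rw [CT.RR, CT.RR, coeff_td _ _ (by norm_num), coeff_td _ _ (by norm_num), e1, e0,
        base5, tay8 x4, p2 2, p2 4, four (q2 2 (by norm_num)) (q2 4 (by norm_num)), map_add,
        map_add, map_add, map_add, map_add, map_add (T.int Y), map_add (T.int Y)] at e2
      simpa only [map_smul, smul_eq_mul] using e2⟩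
    have e0 := e 0
    have e1 := e 1
    have e2 := e 2
    have e3 := e 3
    have e4 := e 4
    have e5 := e 5
    push_cast at e0 e1 e2 e3 e4 e5
    linarith

end Vale.Agent.P280X.R3
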