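import Vale.Agent.P280X.R3.Defs
import Vale.Agent.P280Z.Pr.K336
import Vale.Agent.P280Z.Pr.Prj

/-!
# P280X, block R3: three families with fibres of dimension two on an eightfold
-/

open Set
open Vale.Agent.P272.K Vale.Agent.P285.H281.FD Vale.Agent.P281Z
open Vale.Agent.P280Z Vale.Agent.P280Z.Rh Vale.Agent.P280Z.Pr
open Vale.Agent.P280Z.Pr.K336H (fa_cast pl_cast hS_one)

noncomputable section

namespace Vale.Agent.P280X.R3

namespace K22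

section alg
variable {A : Type} [CommRing A] [Algebra ℝ A] (I : A →ₗ[ℝ] ℝ) {u v w : A} {a b : ℝ}

/-- the relations given by one family -/
structure Rl (u v w : A) (a b : ℝ) : Prop where
  pw : a * I (u ^ 2 * v ^ 2 * w ^ 4) = 0
  pv : b * I (u ^ 2 * v ^ 4 * w ^ 2) = 0
  qv : I (u ^ 3 * v ^ 2 * w ^ 3) = a * I (u ^ 2 * v ^ 3 * w ^ 3) + b * I (u ^ 2 * v ^ 2 * w ^ 4)
  qw : I (u ^ 3 * v ^ 3 * w ^ 2) = a * I (u ^ 2 * v ^ 4 * w ^ 2) + b * I (u ^ 2 * v ^ 3 * w ^ 3)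

theorem rl (vw : ∀ s t, s + t = 7 → v ^ s * w ^ t = 0) (uw : u ^ 3 * w ^ 4 = 0)
    (uv : u ^ 3 * v ^ 4 = 0) (v5 : v ^ 5 = 0) (w5 : w ^ 5 = 0)
    (h : ∀ s t, s + t = 5 → I ((3 * u - (a • v + b • w)) ^ 3 * (v ^ s * w ^ t)) = 0) :
    Rl I u v w a b := by
  have key : ∀ s t, s + t = 5 → I (u ^ 3 * v ^ s * w ^ t) =
      a * I (u ^ 2 * v ^ (s + 1) * w ^ t) + b * I (u ^ 2 * v ^ s * w ^ (t + 1)) := fun s t e => by
    have k := h s t e
    have k1 := vw (s + 2) t (by omega)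
    have k2 := vw (s + 1) (t + 1) (by omega)
    have k3 := vw s (t + 2) (by omega)
    rw [show (3 * u - (a • v + b • w)) ^ 3 * (v ^ s * w ^ t) = (27 : ℝ) • (u ^ 3 * v ^ s * w ^ t -
        a • (u ^ 2 * v ^ (s + 1) * w ^ t) - b • (u ^ 2 * v ^ s * w ^ (t + 1))) by
      simp only [Algebra.smul_def, map_ofNat]
      generalize algebraMap ℝ A a = α
      generalize algebraMap ℝ A b = β
      linear_combination (9 * u - α * v - β * w) * (α ^ 2 * k1 + 2 * α * β * k2 + β ^ 2 * k3)] at k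
    simp only [map_smul, map_sub, smul_eq_mul] at k
    linarith
  have k1 := key 1 4 rfl
  have k4 := key 4 1 rfl
  rw [show u ^ 3 * v ^ 1 * w ^ 4 = 0 by linear_combination v * uw,
    show u ^ 2 * v ^ 1 * w ^ (4 + 1) = 0 by linear_combination u ^ 2 * v * w5, map_zero] at k1
  rw [show u ^ 3 * v ^ 4 * w ^ 1 = 0 by linear_combination w * uv,
    show u ^ 2 * v ^ (4 + 1) * w ^ 1 = 0 by linear_combination u ^ 2 * w * v5, map_zero] at k4
  exact ⟨by linarith, by linarith, key 2 3 rfl, key 3 2 rfl⟩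

theorem Rl.mul (h : Rl I u v w a b) (v5 : v ^ 5 = 0) (w5 : w ^ 5 = 0)
    (c : ∀ s t, s + t = 2 → I (u ^ 2 * (a • v + b • w) ^ 4 * (v ^ s * w ^ t)) = 0) :
    I (u ^ 3 * v ^ 2 * w ^ 3) * I (u ^ 3 * v ^ 3 * w ^ 2) = 0 := by
  obtain ⟨h1, h2, h3, h4⟩ := h
  have c1 := c 2 0 rfl
  have c2 := c 1 1 rfl
  have c3 := c 0 2 rfl
  rw [show u ^ 2 * (a • v + b • w) ^ 4 * (v ^ 2 * w ^ 0) =
      (6 * a ^ 2 * b ^ 2) • (u ^ 2 * v ^ 4 * w ^ 2) + (4 * a * b ^ 3) • (u ^ 2 * v ^ 3 * w ^ 3) +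
        b ^ 4 • (u ^ 2 * v ^ 2 * w ^ 4) by
    simp only [Algebra.smul_def, map_ofNat, map_mul, map_pow]
    generalize algebraMap ℝ A a = α
    generalize algebraMap ℝ A b = β
    linear_combination u ^ 2 * (α ^ 4 * v + 4 * α ^ 3 * β * w) * v5] at c1
  rw [show u ^ 2 * (a • v + b • w) ^ 4 * (v ^ 1 * w ^ 1) =
      (4 * a ^ 3 * b) • (u ^ 2 * v ^ 4 * w ^ 2) + (6 * a ^ 2 * b ^ 2) • (u ^ 2 * v ^ 3 * w ^ 3) +
        (4 * a * b ^ 3) • (u ^ 2 * v ^ 2 * w ^ 4) by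
    simp only [Algebra.smul_def, map_ofNat, map_mul, map_pow]
    generalize algebraMap ℝ A a = α
    generalize algebraMap ℝ A b = β
    linear_combination u ^ 2 * α ^ 4 * w * v5 + u ^ 2 * β ^ 4 * v * w5] at c2
  rw [show u ^ 2 * (a • v + b • w) ^ 4 * (v ^ 0 * w ^ 2) =
      a ^ 4 • (u ^ 2 * v ^ 4 * w ^ 2) + (4 * a ^ 3 * b) • (u ^ 2 * v ^ 3 * w ^ 3) +
        (6 * a ^ 2 * b ^ 2) • (u ^ 2 * v ^ 2 * w ^ 4) by
    simp only [Algebra.smul_def, map_ofNat, map_mul, map_pow]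
    generalize algebraMap ℝ A a = α
    generalize algebraMap ℝ A b = β
    linear_combination u ^ 2 * (β ^ 4 * w + 4 * α * β ^ 3 * v) * w5] at c3
  simp only [map_add, map_smul, smul_eq_mul] at c1 c2 c3
  rw [h3, h4]
  generalize I (u ^ 2 * v ^ 2 * w ^ 4) = p at *
  generalize I (u ^ 2 * v ^ 4 * w ^ 2) = r at *
  generalize I (u ^ 2 * v ^ 3 * w ^ 3) = q at *
  have e1 : a * b * q = 0 := pow_eq_zero_iff two_ne_zero |>.1 (by
    linear_combination q / 6 * c2 - 2 / 3 * a ^ 3 * q * h2 - 2 / 3 * b ^ 3 * q * h1)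
  have e2 : b * p = 0 := pow_eq_zero_iff (n := 4) (by norm_num) |>.1 (by
    linear_combination p ^ 3 * c1 - 6 * a ^ 2 * b * p ^ 3 * h2 - 4 * b ^ 2 * p ^ 3 * e1)
  have e3 : a * r = 0 := pow_eq_zero_iff (n := 4) (by norm_num) |>.1 (by
    linear_combination r ^ 3 * c3 - 6 * a * b ^ 2 * r ^ 3 * h1 - 4 * a ^ 2 * r ^ 3 * e1)
  rw [e2, e3]
  linear_combination q * e1

end alg

variable {T : CT} {V : Mf 8} {B : Bas T V} {i j k : B.J}

/-- three families -/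
structure Tr (B : Bas T V) (i j k : B.J) : Prop where
  th : Th T
  cls : Cls 8 V
  ij : i ≠ j
  ik : i ≠ k
  jk : j ≠ k
  all : ∀ l, l = i ∨ l = j ∨ l = k
  pos : ∀ l, 0 < (B.F l).m
  d : ∀ l, (B.Q {l}).d = 2

namespace Tr

variable (h : Tr B i j k)
include h

theorem sw : Tr B i k j :=
  ⟨h.th, h.cls, h.ik, h.ij, h.jk.symm, fun l => by have := h.all l; tauto, h.pos, h.d⟩

theorem rot : Tr B j k i :=
  ⟨h.th, h.cls, h.jk, h.ij.symm, h.ik.symm, fun l => by have := h.all l; tauto, h.pos, h.d⟩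

theorem y6 (l : B.J) : (B.Q {l}).y = 6 := by
  have := (B.Q {l}).dim
  have := h.d l
  omega

theorem sum (f : B.J → T.H V) : ∑ l, f l = f i + (f j + f k) := by
  rw [show (Finset.univ : Finset B.J) = {i, j, k} from Finset.ext fun l => by simpa using h.all l,
    Finset.sum_insert (by simp [h.ij, h.ik]), Finset.sum_pair h.jk]

theorem dgH (l : B.J) : T.Dg V 1 (B.H l) := h.th.ok.po.deg (B.nn l)

theorem ex : ∃ b, T.Dg (B.Q {i}).Y 1 b ∧ B.H j = T.pull (B.Q {i}).sub.hol b :=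
  (B.Q {i}).ex1 h.th.ok (h.dgH j) fun l hl => by rw [show l = i from hl, B.dual, if_neg h.ij]

theorem iv (s t : ℕ) : Iv (nsm (B.F i)) (s + t) (B.H j ^ s * B.H k ^ t) := by
  obtain ⟨b, -, e⟩ := h.ex
  obtain ⟨c, -, e'⟩ := h.sw.ex
  exact ⟨h.th.ok.rg.dg_mul V s t _ _ (Ma.dg_pow h.th.ok (h.dgH j) s)
    (Ma.dg_pow h.th.ok (h.dgH k) t), ((B.Q {i}).s4 _).2
      ⟨b ^ s * c ^ t, by rw [map_mul, map_pow, map_pow, ← e, ← e']⟩ i rfl⟩

theorem fa (fax : FAX) (rd : RD) : FA (nsm (B.F i)) 8 1 2 6 (tr T (B.Q {i}).sub.hol) := by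
  have f := fax T h.th.ok B.F i (B.Q {i}) h.cls.1.1
  refine fa_cast f ?_ (h.d i) (h.y6 i)
  have := rd _ _ _ _ _ _ f
  have := h.pos i
  have := h.d i
  omega

theorem v7 (fax : FAX) (rd : RD) (s t : ℕ) (e : s + t = 7) : B.H j ^ s * B.H k ^ t = 0 :=
  (h.fa fax rd).van _ _ (by omega) (h.iv s t)

theorem pw {m : ℕ} (e : (B.Q {i}ᶜ).y < m) : B.H i ^ m = 0 :=
  (B.Q {i}ᶜ).pow_zero' h.th.ok (h.dgH i) (fun l hl => by
    rw [B.dual, if_neg (show l ≠ i from hl)]) e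

theorem cpl : ({i}ᶜ : Set B.J) = insert k {j} := by
  ext l
  rcases h.all l with rfl | rfl | rfl <;> simp [h.ij, h.ik, h.ij.symm, h.ik.symm]

theorem le4 (dj : Dimj B) : (B.Q {i}ᶜ).y ≤ 4 := by
  have := dj {j} k (by simp [h.jk.symm])
  rw [← h.cpl, h.y6, h.d] at this
  omega

theorem hSc : hS B {i}ᶜ = B.H j + B.H k := by
  rw [hS, h.sum]
  simp [h.ij.symm, h.ik.symm]

theorem vol (pj : Posj B) {e : ℕ} (he : (B.Q {i}ᶜ).y = e) :
    0 < T.int V ((B.H j + B.H k) ^ (8 - e) * B.H i ^ e) := by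
  have p := (pj {i}ᶜ).2
  have := (B.Q {i}ᶜ).dim
  rwa [compl_compl, hS_one, h.hSc, he, show (B.Q {i}ᶜ).d = 8 - e by omega] at p

theorem fam (fax : FAX) (cm2 : CM2) (c : C236G) (rd : RD) (pl2 : PL2) (dj : Dimj B) :
    ∃ a b, Rl (T.int V) (B.H i) (B.H j) (B.H k) a b ∧ (B.H i ^ 4 = 0 →
      T.int V (B.H i ^ 3 * B.H j ^ 2 * B.H k ^ 3) *
        T.int V (B.H i ^ 3 * B.H j ^ 3 * B.H k ^ 2) = 0) := by
  have hT := h.th.ok
  have f := h.fa fax rd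
  have hm : (B.F i).m = 1 := by
    have := rd _ _ _ _ _ _ (fax T hT B.F i (B.Q {i}) h.cls.1.1)
    have := h.pos i
    have := h.d i
    omega
  have pl := pl_cast (pl2 T h.th V B h.cls i hm (h.d i)).1 (h.y6 i)
  have e := (B.span _ (f.dt 1)).trans (h.sum _)
  rw [show (B.F i).dg (tr T (B.Q {i}).sub.hol 1) = 3 by
    rw [tr, map_sub, (B.F i).c1, (B.Q {i}).dg_pull hT rfl (hT.ch.deg _ _ 1), sub_zero, hm]
    norm_num] at e
  generalize (B.F j).dg (tr T (B.Q {i}).sub.hol 1) = α at e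
  generalize (B.F k).dg (tr T (B.Q {i}).sub.hol 1) = β at e
  have e' : tr T (B.Q {i}).sub.hol 1 = 3 * B.H i - ((-α) • B.H j + (-β) • B.H k) := by
    rw [e, Algebra.smul_def (3 : ℝ), map_ofNat, neg_smul, neg_smul]
    ring
  have j5 := h.rot.pw (m := 5) (by have := h.rot.le4 dj; omega)
  have k5 := h.rot.rot.pw (m := 5) (by have := h.rot.rot.le4 dj; omega)
  have r := rl (T.int V) (a := -α) (b := -β) (h.v7 fax rd) (h.rot.sw.v7 fax rd 3 4 rfl)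
    (h.rot.rot.v7 fax rd 3 4 rfl) j5 k5 fun s t st => by
      rw [← e']
      exact cm2 _ _ _ _ f pl (s + t) _ (by omega) (h.iv s t)
  refine ⟨_, _, r, fun x4 => r.mul _ j5 k5 fun s t st => ?_⟩
  have c1 := c _ _ _ _ f pl _ (prj_un hT B i) x4 _ _ (h.iv s t) (by omega)
  rwa [e', sub_sub_cancel] at c1

theorem three (fax : FAX) (cm2 : CM2) (c : C236G) (rd : RD) (pl2 : PL2) (pj : Posj B)
    (dj : Dimj B) (e : (B.Q {i}ᶜ).y = 3) : False := by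
  have x4 := h.pw (m := 4) (by omega)
  obtain ⟨-, -, -, h1⟩ := h.fam fax cm2 c rd pl2 dj
  obtain ⟨a, b, h2, -⟩ := h.rot.fam fax cm2 c rd pl2 dj
  obtain ⟨a', b', h3, -⟩ := h.sw.rot.fam fax cm2 c rd pl2 dj
  have p := h.vol pj e
  have v1 := h.rot.v7 fax rd 4 3 rfl
  have v2 := h.sw.rot.v7 fax rd 4 3 rfl
  have h4 := h2.qv
  have h5 := h3.qv
  replace h1 := h1 x4
  generalize B.H i = x at *
  generalize B.H j = y at *
  generalize B.H k = z at *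
  rw [show (y + z) ^ (8 - 3) * x ^ 3 =
      (10 : ℝ) • (x ^ 3 * y ^ 2 * z ^ 3) + (10 : ℝ) • (x ^ 3 * y ^ 3 * z ^ 2) by
    simp only [Algebra.smul_def, map_ofNat]
    linear_combination (5 * y + z) * v1 + (5 * z + y) * v2] at p
  rw [show y ^ 2 * z ^ 2 * x ^ 4 = 0 by rw [x4, mul_zero],
    show y ^ 3 * z ^ 2 * x ^ 3 = x ^ 3 * y ^ 3 * z ^ 2 by ring,
    show y ^ 2 * z ^ 3 * x ^ 3 = x ^ 3 * y ^ 2 * z ^ 3 by ring] at h4
  rw [show z ^ 2 * y ^ 2 * x ^ 4 = 0 by rw [x4, mul_zero],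
    show z ^ 3 * y ^ 2 * x ^ 3 = x ^ 3 * y ^ 2 * z ^ 3 by ring,
    show z ^ 2 * y ^ 3 * x ^ 3 = x ^ 3 * y ^ 3 * z ^ 2 by ring] at h5
  simp only [map_add, map_smul, map_zero, smul_eq_mul, mul_zero, add_zero] at p h4 h5
  rcases mul_eq_zero.1 h1 with q | q
  · rw [q, mul_zero] at h4
    linarith
  · rw [q, mul_zero] at h5
    linarith

theorem p4 (fax : FAX) (rd : RD) (pj : Posj B) (e : (B.Q {i}ᶜ).y = 4) :
    0 < T.int V (B.H j ^ 2 * B.H k ^ 2 * B.H i ^ 4) := by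
  have p := h.vol pj e
  have v1 := h.rot.v7 fax rd 3 4 rfl
  have v2 := h.sw.rot.v7 fax rd 3 4 rfl
  rw [show (B.H j + B.H k) ^ (8 - 4) * B.H i ^ 4 =
      (6 : ℝ) • (B.H j ^ 2 * B.H k ^ 2 * B.H i ^ 4) by
    simp only [Algebra.smul_def, map_ofNat]
    linear_combination (4 * B.H j + B.H k) * v1 + (4 * B.H k + B.H j) * v2,
    map_smul, smul_eq_mul] at p
  linarith

end Tr

theorem hr6' (hr : HR6) (hT : T.OK) {y : ℕ} (hy : y = 6) (Y : Mf y) (x g : T.H Y) (h1 : T.Nn Y x)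
    (h2 : T.Nn Y g) (h3 : ∀ s t : ℝ, 0 < s → 0 < t → T.Kc Y (s • x + t • g))
    (h4 : ∀ a, T.Dg Y 1 a → ∃ s t : ℝ, a = s • x + t • g) (h5 : x ^ 5 = 0) (h6 : g ^ 5 = 0)
    (h7 : 0 < T.int Y (x ^ 2 * g ^ 4)) (h8 : 0 < T.int Y (x ^ 4 * g ^ 2)) :
    T.int Y (x ^ 3 * g ^ 3) ≠ 0 := by
  subst hy
  exact hr T hT Y x g h1 h2 h3 h4 h5 h6 h7 h8

theorem four (h : Tr B i j k) (fax : FAX) (cm2 : CM2) (c : C236G) (rd : RD) (pl2 : PL2)
    (pj : Posj B) (dj : Dimj B) (hr : HR6) (e : ∀ l, (B.Q {l}ᶜ).y = 4) : False := by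
  have hT := h.th.ok
  obtain ⟨cV, kV⟩ := (fano_iff hT V).1 h.cls.1
  have kV := (hT.po.kah V).2 ⟨_, kV⟩
  have cY := (B.Q {i}).conn cV
  have dim := (B.Q {i}).dim
  have inj := fun b => pull_inj hT (B.Q {i}).sub dim (B.Q {i}).onto cY kV (b := b)
  obtain ⟨a, b, h1, -⟩ := h.rot.fam fax cm2 c rd pl2 dj
  have p1 := h.p4 fax rd pj (e i)
  have p2 := h.rot.p4 fax rd pj (e j)
  have p3 := h.rot.rot.p4 fax rd pj (e k)
  have q := h1.qw
  rw [(mul_eq_zero.1 h1.pw).resolve_right p1.ne', (mul_eq_zero.1 h1.pv).resolve_right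
    (by rw [show B.H j ^ 2 * B.H k ^ 4 * B.H i ^ 2 = B.H i ^ 2 * B.H j ^ 2 * B.H k ^ 4 by ring]
        exact p3.ne'), zero_mul, zero_mul, add_zero] at q
  obtain ⟨x, dx, ex⟩ := h.ex
  obtain ⟨g, dg, eg⟩ := h.sw.ex
  obtain ⟨r, er⟩ := prj_push hT (B.Q {i}).sub dim cY (Ma.dg_pow hT (h.dgH i) _)
  have pr : ∀ s t, T.int V (B.H i ^ 2 * B.H j ^ s * B.H k ^ t) =
      r * T.int (B.Q {i}).Y (x ^ s * g ^ t) := fun s t => by
    rw [← prj_int hT (B.Q {i}).sub er, map_mul (T.pull _), map_pow (T.pull _), map_pow (T.pull _),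
      ← ex, ← eg, mul_assoc, h.d i]
  have r0 : 0 < r := by
    obtain ⟨⟨w, hw, ew⟩, p⟩ := pj {i}
    rw [hS_one, ew, ← map_pow, prj_int hT (B.Q {i}).sub er] at p
    exact (mul_pos_iff_of_pos_right (Ma.kc_vol hT hw (Classical.arbitrary _))).1 p
  refine hr6' hr hT (h.y6 i) _ x g
    (nn_desc hT (B.Q {i}).sub dim (B.Q {i}).onto cY kV dx (ex ▸ B.nn j))
    (nn_desc hT (B.Q {i}).sub dim (B.Q {i}).onto cY kV dg (eg ▸ B.nn k))
    (fun s t hs ht => B.kcY _ _ (by rw [CT.Dg, map_add, map_smul, map_smul, dx, dg]) fun l hl => ?_)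
    (fun u hu => ⟨(B.F j).dg (T.pull (B.Q {i}).sub.hol u), (B.F k).dg (T.pull (B.Q {i}).sub.hol u),
      sub_eq_zero.1 (inj _ ?_)⟩)
    (inj _ (by rw [map_pow, ← ex]; exact h.rot.pw (by have := e j; omega)))
    (inj _ (by rw [map_pow, ← eg]; exact h.rot.rot.pw (by have := e k; omega)))
    ((mul_pos_iff_of_pos_left r0).1 (pr 2 4 ▸ p3))
    ((mul_pos_iff_of_pos_left r0).1 (pr 4 2 ▸ by
      rwa [show B.H k ^ 2 * B.H i ^ 2 * B.H j ^ 4 = B.H i ^ 2 * B.H j ^ 4 * B.H k ^ 2 by ring] at p2))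
    ((mul_eq_zero.1 ((pr 3 3).symm.trans ((congrArg _ (by ring)).trans q))).resolve_left r0.ne')
  · rw [map_add, map_smul, map_smul, ← ex, ← eg, map_add, map_smul, map_smul, B.dual, B.dual]
    rcases h.all l with rfl | rfl | rfl
    · exact (hl rfl).elim
    · simp [h.jk, hs]
    · simp [h.jk.symm, ht]
  · rw [map_sub, map_add, map_smul, map_smul, ← ex, ← eg, sub_eq_zero]
    refine ((B.span _ (Ma.dg_pull hT _ hu)).trans (h.sum _)).trans ?_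
    rw [(B.Q {i}).dg_pull hT rfl hu, zero_smul, zero_add]

end K22

open K22 in
/-- **row K2228** -/
theorem k22_of (fax : FAX) (cm2 : CM2) (c : C236G) (rd : RD) (pl2 : PL2) (posj : POSJ)
    (dimj : DIMJ) (hr : HR6) : K2228 := by
  intro T th V B cl i j k ij ik jk all pos d
  have h : Tr B i j k := ⟨th, cl, ij, ik, jk, all, pos, d⟩
  have pj := posj T th.ok B cl.1.1
  have dj := dimj T th.ok B cl.1.1
  by_contra n2
  have key : ∀ {i j k : B.J}, Tr B i j k → (B.Q {i}ᶜ).y = 4 := fun {i j k} h => by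
    have h1 := h.le4 dj
    have h2 := dj {i}ᶜ i (by simp)
    have h3 := h.d i
    have h4 : (B.Q {i}ᶜ).y ≠ 2 := fun e => n2 ⟨i, e⟩
    have h5 : (B.Q {i}ᶜ).y ≠ 3 := h.three fax cm2 c rd pl2 pj dj
    omega
  refine four h fax cm2 c rd pl2 pj dj hr fun l => ?_
  rcases all l with rfl | rfl | rfl
  exacts [key h, key h.rot, key h.rot.rot]

end Vale.Agent.P280X.R3
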