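import Vale.Agent.P280X.R3.Defs
import Vale.Agent.P280Z.Pr.Adjf
import Vale.Agent.P280Z.Pr.D2
import Vale.Agent.P280Z.Pr.Fax
import Vale.Agent.P280Z.Pr.Hr6
import Vale.Agent.P280Z.Pr.K226
import Vale.Agent.P280Z.Pr.Posj
import Vale.Agent.P280Z.Pr.Prj
import Vale.Agent.P280Z.Pr.Rd

/-!
# P280X, block R3: three families with fibres of dimension two on an eightfold
-/

open Set
open Vale.Agent.P272.K Vale.Agent.P285.H281.FD Vale.Agent.P281Z
open Vale.Agent.P280Z Vale.Agent.P280Z.Rh Vale.Agent.P280Z.Pr Vale.Agent.P280Z.Ma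

noncomputable section

namespace Vale.Agent.P280X.R3

namespace K67

section alg
variable {A : Type} [CommRing A] [Algebra ℝ A] (I : A →ₗ[ℝ] ℝ) {x u v : A} {a b : ℝ}

theorem cub (hz : ∀ s t, 7 ≤ s + t → u ^ s * v ^ t = 0) {s t : ℕ} (hs : s + t = 5)
    (h : I ((3 * x - (a • u + b • v)) ^ 3 * (u ^ s * v ^ t)) = 0) :
    I (x ^ 3 * u ^ s * v ^ t) =
      a * I (x ^ 2 * u ^ (s + 1) * v ^ t) + b * I (x ^ 2 * u ^ s * v ^ (t + 1)) := by
  have e : (3 * x - (a • u + b • v)) ^ 3 * (u ^ s * v ^ t) = (27 : ℝ) • (x ^ 3 * u ^ s * v ^ t -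
      (a • (x ^ 2 * u ^ (s + 1) * v ^ t) + b • (x ^ 2 * u ^ s * v ^ (t + 1)))) := by
    have h1 := hz (s + 2) t (by omega)
    have h2 := hz (s + 1) (t + 1) (by omega)
    have h3 := hz s (t + 2) (by omega)
    simp only [Algebra.smul_def, map_ofNat]
    generalize algebraMap ℝ A a = α
    generalize algebraMap ℝ A b = β
    linear_combination (9 * x - (α * u + β * v)) * (α ^ 2 * h1 + 2 * α * β * h2 + β ^ 2 * h3)
  rw [e, map_smul, smul_eq_zero, map_sub, map_add, map_smul, map_smul, sub_eq_zero] at h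
  exact h.resolve_left (by norm_num)

theorem qua (s t : ℕ) : I (x ^ 2 * (a • u + b • v) ^ 4 * (u ^ s * v ^ t)) =
    a ^ 4 * I (x ^ 2 * u ^ (s + 4) * v ^ t) +
      4 * a ^ 3 * b * I (x ^ 2 * u ^ (s + 3) * v ^ (t + 1)) +
      6 * a ^ 2 * b ^ 2 * I (x ^ 2 * u ^ (s + 2) * v ^ (t + 2)) +
      4 * a * b ^ 3 * I (x ^ 2 * u ^ (s + 1) * v ^ (t + 3)) +
      b ^ 4 * I (x ^ 2 * u ^ s * v ^ (t + 4)) := by
  simp only [← smul_eq_mul (α := ℝ), ← map_smul, ← map_add]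
  congr 1
  simp only [smul_eq_mul, Algebra.smul_def (A := A), map_mul, map_pow, map_ofNat]
  ring

end alg

/-- three families -/
structure Tri {T : CT} {V : Mf 8} (B : Bas T V) (j i k : B.J) : Prop where
  th : Th T
  cls : Cls 8 V
  ji : j ≠ i
  jk : j ≠ k
  ik : i ≠ k
  all : ∀ l, l = j ∨ l = i ∨ l = k
  pos : ∀ l, 0 < (B.F l).m
  two : ∀ l, (B.Q {l}).d = 2

variable {T : CT} {V : Mf 8} {B : Bas T V} {j i k : B.J}

theorem Tri.sw (h : Tri B j i k) : Tri B j k i :=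
  ⟨h.th, h.cls, h.jk, h.ji, h.ik.symm, fun l => by have := h.all l; tauto, h.pos, h.two⟩

theorem Tri.rot (h : Tri B j i k) : Tri B k j i :=
  ⟨h.th, h.cls, h.jk.symm, h.ik.symm, h.ji, fun l => by have := h.all l; tauto, h.pos, h.two⟩

theorem Tri.sum (h : Tri B j i k) (f : B.J → T.H V) : ∑ l, f l = f j + (f i + f k) := by
  rw [show (Finset.univ : Finset B.J) = {j, i, k} from Finset.ext fun l => by
    simpa using h.all l, Finset.sum_insert (by simp [h.ji, h.jk]), Finset.sum_pair h.ik]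

theorem Tri.dg (h : Tri B j i k) (l : B.J) : T.Dg V 1 (B.H l) := h.th.ok.po.deg (B.nn l)

theorem Tri.y6 (h : Tri B j i k) (l : B.J) : (B.Q {l}).y = 6 := by
  have := (B.Q {l}).dim
  have := h.two l
  omega

theorem Tri.ex (h : Tri B j i k) : ∃ w, T.Dg (B.Q {j}).Y 1 w ∧
    B.H i = T.pull (B.Q {j}).sub.hol w :=
  (B.Q {j}).ex1 h.th.ok (h.dg i) fun l hl => by
    rw [mem_singleton_iff.1 hl, B.dual, if_neg h.ji]

theorem Tri.iv (h : Tri B j i k) (s t : ℕ) : Iv (nsm (B.F j)) (s + t) (B.H i ^ s * B.H k ^ t) := by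
  have hT := h.th.ok
  obtain ⟨w, w1, w2⟩ := h.ex
  obtain ⟨w', w3, w4⟩ := h.sw.ex
  rw [w2, w4, ← map_pow, ← map_pow, ← map_mul]
  exact ⟨dg_pull hT _ (hT.rg.dg_mul _ _ _ _ _ (dg_pow hT w1 s) (dg_pow hT w3 t)),
    ((B.Q {j}).s4 _).2 ⟨_, rfl⟩ j rfl⟩

theorem Tri.fa (h : Tri B j i k) : FA (nsm (B.F j)) 8 1 2 6 (tr T (B.Q {j}).sub.hol) ∧
    Pl (nsm (B.F j)) 6 (tr T (B.Q {j}).sub.hol) := by
  have f0 := fax T h.th.ok B.F j (B.Q {j}) h.cls.1.1
  have hm : (B.F j).m = 1 := by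
    have := rd _ _ _ _ _ _ f0
    have := h.pos j
    have := h.two j
    omega
  exact ⟨K226H.fa_cast f0 hm (h.two j) (h.y6 j),
    (congrArg (fun y => Pl (nsm (B.F j)) y (tr T (B.Q {j}).sub.hol)) (h.y6 j)).mp
      (pl2_of fax g2 (g3x_of adjf) T h.th V B h.cls j hm (h.two j)).1⟩

theorem Tri.van (h : Tri B j i k) (s t : ℕ) (e : 7 ≤ s + t) : B.H i ^ s * B.H k ^ t = 0 :=
  h.fa.1.van _ _ (by omega) (h.iv s t)

/-- the intersection numbers -/
def mo (B : Bas T V) (j i k : B.J) (p q r : ℕ) : ℝ := T.int V (B.H j ^ p * B.H i ^ q * B.H k ^ r)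

theorem mo_sw (p q r : ℕ) : mo B j k i p r q = mo B j i k p q r :=
  congrArg (T.int V) (mul_right_comm _ _ _)

theorem mo_rot (p q r : ℕ) : mo B k j i r p q = mo B j i k p q r :=
  congrArg (T.int V) (by ring)

theorem Tri.v3 (h : Tri B j i k) {p q : ℕ} (r : ℕ) (e : 7 ≤ p + q) : mo B j i k p q r = 0 := by
  rw [mo, h.rot.van p q e, zero_mul, map_zero]

theorem Tri.v2 (h : Tri B j i k) {p r : ℕ} (q : ℕ) (e : 7 ≤ p + r) : mo B j i k p q r = 0 := by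
  rw [← mo_sw, h.sw.v3 q e]

theorem Tri.rel (hC : C236G) (h : Tri B j i k) : ∃ a b : ℝ, b * mo B j i k 2 4 2 = 0 ∧
    a * mo B j i k 2 2 4 = 0 ∧ mo B j i k 3 3 2 = a * mo B j i k 2 4 2 + b * mo B j i k 2 3 3 ∧
    mo B j i k 3 2 3 = a * mo B j i k 2 3 3 + b * mo B j i k 2 2 4 ∧
    (B.H j ^ 4 = 0 → mo B j i k 3 3 2 * mo B j i k 3 2 3 = 0) := by
  have hT := h.th.ok
  obtain ⟨f1, f2⟩ := h.fa
  obtain ⟨a, b, t1⟩ : ∃ a b : ℝ, tr T (B.Q {j}).sub.hol 1 = 3 * B.H j - (a • B.H i + b • B.H k) := by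
    have hm : (B.F j).dg (tr T (B.Q {j}).sub.hol 1) = 3 := by
      obtain ⟨x⟩ := (B.F j).ne
      refine alg_inj hT (B.F j).kU x ?_
      rw [← (B.F j).hdg _ (f1.dt 1)]
      refine f1.c1.trans ?_
      rw [map_ofNat]
      norm_num
    refine ⟨-(B.F i).dg (tr T (B.Q {j}).sub.hol 1), -(B.F k).dg (tr T (B.Q {j}).sub.hol 1), ?_⟩
    refine (B.span _ (f1.dt 1)).trans ?_
    rw [h.sum, hm, neg_smul, neg_smul, Algebra.smul_def, map_ofNat]
    ring
  have c : ∀ s t, s + t = 5 → mo B j i k 3 s t = a * mo B j i k 2 (s + 1) t +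
      b * mo B j i k 2 s (t + 1) := fun s t e => cub (T.int V) h.van e (by
    rw [← t1]
    exact cm2 _ _ _ _ f1 f2 (s + t) _ (by omega) (h.iv s t))
  have c1 := c 4 1 rfl
  have c2 := c 1 4 rfl
  have c3 := c 3 2 rfl
  have c4 := c 2 3 rfl
  rw [h.v3 _ (by norm_num), h.v3 _ (by norm_num)] at c1
  rw [h.v2 _ (by norm_num), h.v2 (r := 4 + 1) _ (by norm_num)] at c2
  have c5 : b * mo B j i k 2 4 2 = 0 := by linear_combination -c1
  have c6 : a * mo B j i k 2 2 4 = 0 := by linear_combination -c2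
  refine ⟨a, b, c5, c6, c3, c4, fun x4 => ?_⟩
  have q : ∀ s t, s + t = 2 → a ^ 4 * mo B j i k 2 (s + 4) t +
      4 * a ^ 3 * b * mo B j i k 2 (s + 3) (t + 1) +
      6 * a ^ 2 * b ^ 2 * mo B j i k 2 (s + 2) (t + 2) +
      4 * a * b ^ 3 * mo B j i k 2 (s + 1) (t + 3) + b ^ 4 * mo B j i k 2 s (t + 4) = 0 :=
    fun s t e => (qua (T.int V) s t).symm.trans (by
      have := hC _ _ _ _ f1 f2 _ (prj_un hT B j) x4 (s + t) _ (h.iv s t) (by omega)
      rwa [t1, sub_sub_cancel] at this)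
  have q1 := q 2 0 rfl
  have q2 := q 1 1 rfl
  have q3 := q 0 2 rfl
  rw [h.v3 _ (by norm_num), h.v3 _ (by norm_num)] at q1
  rw [h.v3 _ (by norm_num), h.v2 (r := 1 + 4) _ (by norm_num)] at q2
  rw [h.v2 (r := 2 + 3) _ (by norm_num), h.v2 (r := 2 + 4) _ (by norm_num)] at q3
  simp only [Nat.reduceAdd] at q1 q2 q3 c3 c4
  rw [c3, c4]
  generalize mo B j i k 2 4 2 = P at *
  generalize mo B j i k 2 2 4 = R at *
  generalize mo B j i k 2 3 3 = Q at *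
  have r1 : a * b * Q = 0 := by
    have : (a * b) * (a * b * Q) = 0 := by
      linear_combination q2 / 6 - 2 / 3 * a ^ 3 * c5 - 2 / 3 * b ^ 3 * c6
    rcases mul_eq_zero.1 this with e | e
    · rw [e, zero_mul]
    · exact e
  have r2 : b * R = 0 := by
    have : b ^ 3 * (b * R) = 0 := by
      linear_combination q1 - 6 * a ^ 2 * b * c5 - 4 * b ^ 2 * r1
    rcases mul_eq_zero.1 this with e | e
    · rw [pow_eq_zero_iff (by norm_num)] at e
      rw [e, zero_mul]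
    · exact e
  have r3 : a * P = 0 := by
    have : a ^ 3 * (a * P) = 0 := by
      linear_combination q3 - 6 * a * b ^ 2 * c6 - 4 * a ^ 2 * r1
    rcases mul_eq_zero.1 this with e | e
    · rw [pow_eq_zero_iff (by norm_num)] at e
      rw [e, zero_mul]
    · exact e
  rw [r2, r3]
  linear_combination Q * r1

theorem Tri.top (h : Tri B j i k) {r : ℕ} (e : (B.Q {j}ᶜ).y < r) : B.H j ^ r = 0 :=
  (B.Q {j}ᶜ).pow_zero' h.th.ok (h.dg j) (fun l hl => by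
    rw [B.dual, if_neg (show l ≠ j from hl)]) e

theorem Tri.bd (h : Tri B j i k) : 2 ≤ (B.Q {j}ᶜ).y ∧ (B.Q {j}ᶜ).y ≤ 4 := by
  have d := dimj_of posj T h.th.ok B h.cls.1.1
  have h1 := d {j}ᶜ j (by simp)
  have h2 := d {i} k (by simp [h.ik.symm])
  have e : (insert k {i} : Set B.J) = {j}ᶜ := by
    ext l
    rcases h.all l with rfl | rfl | rfl <;> simp [h.ji, h.jk, h.ji.symm, h.jk.symm]
  rw [e, h.two, h.y6] at h2
  rw [h.two] at h1
  omega

theorem Tri.ps (h : Tri B j i k) {d y : ℕ} (e : (B.Q {j}ᶜ).y = y) (e' : y + d = 8) :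
    0 < T.int V ((B.H i + B.H k) ^ d * B.H j ^ y) := by
  have p := (posj T h.th.ok B h.cls.1.1 {j}ᶜ).2
  have := (B.Q {j}ᶜ).dim
  rw [show (B.Q {j}ᶜ).d = d by omega, e, compl_compl, prj_hS, hS, h.sum] at p
  simpa [h.ji.symm, h.jk.symm] using p

theorem Tri.p3 (h : Tri B j i k) (e : (B.Q {j}ᶜ).y = 3) :
    0 < mo B j i k 3 3 2 + mo B j i k 3 2 3 := by
  have p := h.ps e (d := 5) rfl
  have e : T.int V ((B.H i + B.H k) ^ 5 * B.H j ^ 3) = mo B j i k 3 5 0 + 5 * mo B j i k 3 4 1 +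
      10 * mo B j i k 3 3 2 + 10 * mo B j i k 3 2 3 + 5 * mo B j i k 3 1 4 + mo B j i k 3 0 5 := by
    simp only [mo, ← smul_eq_mul (α := ℝ), ← map_smul, ← map_add]
    congr 1
    simp only [Algebra.smul_def, map_ofNat]
    ring
  rw [e, h.v3 (q := 5) _ (by norm_num), h.v3 (q := 4) _ (by norm_num),
    h.v2 (r := 5) _ (by norm_num), h.v2 (r := 4) _ (by norm_num)] at p
  linarith

theorem Tri.p4 (h : Tri B j i k) (e : (B.Q {j}ᶜ).y = 4) : 0 < mo B j i k 4 2 2 := by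
  have p := h.ps e (d := 4) rfl
  have e : T.int V ((B.H i + B.H k) ^ 4 * B.H j ^ 4) = mo B j i k 4 4 0 + 4 * mo B j i k 4 3 1 +
      6 * mo B j i k 4 2 2 + 4 * mo B j i k 4 1 3 + mo B j i k 4 0 4 := by
    simp only [mo, ← smul_eq_mul (α := ℝ), ← map_smul, ← map_add]
    congr 1
    simp only [Algebra.smul_def, map_ofNat]
    ring
  rw [e, h.v3 (q := 4) _ (by norm_num), h.v3 (q := 3) _ (by norm_num),
    h.v2 (r := 4) _ (by norm_num), h.v2 (r := 3) _ (by norm_num)] at p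
  linarith

theorem hr6' {y : ℕ} (hy : y = 6) (hT : T.OK) (Y : Mf y) (x h : T.H Y) (h1 : T.Nn Y x)
    (h2 : T.Nn Y h) (h3 : ∀ s t : ℝ, 0 < s → 0 < t → T.Kc Y (s • x + t • h))
    (h4 : ∀ a, T.Dg Y 1 a → ∃ s t : ℝ, a = s • x + t • h) (h5 : x ^ 5 = 0) (h6 : h ^ 5 = 0)
    (h7 : 0 < T.int Y (x ^ 2 * h ^ 4)) (h8 : 0 < T.int Y (x ^ 4 * h ^ 2)) :
    T.int Y (x ^ 3 * h ^ 3) ≠ 0 := by
  subst hy
  exact hr6 T hT Y x h h1 h2 h3 h4 h5 h6 h7 h8

theorem Tri.hr (h : Tri B j i k) (h1 : 0 < mo B j i k 2 2 4) (h2 : 0 < mo B j i k 2 4 2) :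
    mo B j i k 2 3 3 ≠ 0 := by
  have hT := h.th.ok
  obtain ⟨cV, kV⟩ := (fano_iff hT V).1 h.cls.1
  have kV' := (hT.po.kah V).2 ⟨_, kV⟩
  have cY := (B.Q {j}).conn cV
  have sb := (B.Q {j}).sub
  have dim := (B.Q {j}).dim
  have on := (B.Q {j}).onto
  obtain ⟨w, w1, w2⟩ := h.ex
  obtain ⟨w', w3, w4⟩ := h.sw.ex
  obtain ⟨c, hc⟩ := prj_push hT sb (dim.trans (congrArg _ (h.two j))) cY (dg_pow hT (h.dg j) 2)
  have k1 : ∀ q r, mo B j i k 2 q r = c * T.int _ (w ^ q * w' ^ r) := fun q r => by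
    rw [← prj_int hT sb hc, map_mul (T.pull _), map_pow, map_pow, ← w2, ← w4, mo, mul_assoc]
  have n1 := nn_desc hT sb dim on cY kV' w1 (w2 ▸ B.nn i)
  have n2 := nn_desc hT sb dim on cY kV' w3 (w4 ▸ B.nn k)
  have k2 : ∀ q r, 0 < mo B j i k 2 q r → 0 < T.int _ (w ^ q * w' ^ r) := fun q r e =>
    (hT.po.wp_int (wp_pow hT n1 (mul_one (w' ^ r) ▸ wp_pow hT n2 (hT.po.wp_one _) r) q)).lt_of_ne'
      fun e' => by
        rw [k1, e', mul_zero] at e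
        exact e.false
  have inj := fun b => pull_inj hT sb dim on cY kV' (b := b)
  rw [k1]
  refine mul_ne_zero (fun e => ?_) (hr6' (h.y6 j) hT _ w w' n1 n2 (fun s t hs ht => B.kcY _ _ (by
    rw [CT.Dg, map_add, map_smul, map_smul, w1, w3]) fun l hl => ?_) (fun a ha =>
      ⟨(B.F i).dg (T.pull sb.hol a), (B.F k).dg (T.pull sb.hol a), sub_eq_zero.1 (inj _ ?_)⟩)
      (inj _ ?_) (inj _ ?_) (k2 _ _ h1) (k2 _ _ h2))
  · rw [k1, e, zero_mul] at h1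
    exact h1.false
  · rw [map_add, map_smul, map_smul, ← w2, ← w4, map_add, map_smul, map_smul, B.dual, B.dual]
    rcases h.all l with rfl | rfl | rfl
    · exact (hl rfl).elim
    · simp [h.ik, hs]
    · simp [h.ik.symm, ht]
  · rw [map_sub, map_add, map_smul, map_smul, ← w2, ← w4, sub_eq_zero]
    refine (B.span _ (dg_pull hT _ ha)).trans ?_
    rw [h.sum, (B.Q {j}).dg_pull hT rfl ha, zero_smul, zero_add]
  · rw [map_pow, ← w2]
    exact h.rot.rot.top (h.rot.rot.bd.2.trans_lt (by norm_num))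
  · rw [map_pow, ← w4]
    exact h.rot.top (h.rot.bd.2.trans_lt (by norm_num))

theorem Tri.aux (hC : C236G) (h : Tri B j i k) (x4 : B.H j ^ 4 = 0) (e : mo B j i k 3 3 2 = 0) :
    mo B j i k 3 2 3 = 0 := by
  obtain ⟨a, b, -, -, c, -⟩ := h.rot.rel hC
  rw [mo_rot 3 2 3, mo_rot 4 2 2, mo_rot 3 3 2, e, mo.eq_1 B j i k 4, x4] at c
  simpa using c

theorem Tri.no3 (hC : C236G) (h : Tri B j i k) : (B.Q {j}ᶜ).y ≠ 3 := fun e => by
  have x4 := h.top (r := 4) (by omega)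
  have p := h.p3 e
  obtain ⟨a, b, -, -, -, -, c⟩ := h.rel hC
  rcases mul_eq_zero.1 (c x4) with c | c
  · rw [c, h.aux hC x4 c] at p
    norm_num at p
  · rw [c, ← mo_sw, h.sw.aux hC x4 ((mo_sw _ _ _).trans c)] at p
    norm_num at p

end K67

open K67 in
/-- **row K2228** -/
theorem k2228h_of (hC : C236G) : K2228 := by
  intro T th V B cl j i k ji jk ik all pos two
  have h : Tri B j i k := ⟨th, cl, ji, jk, ik, all, pos, two⟩
  by_contra hn
  have y4 : ∀ {j i k}, Tri B j i k → 0 < mo B j i k 4 2 2 := fun {j i k} h => h.p4 (by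
    have := h.bd
    have := h.no3 hC
    have : (B.Q {j}ᶜ).y ≠ 2 := fun e => hn ⟨j, e⟩
    omega)
  have p1 : 0 < mo B j i k 2 4 2 := mo_rot (B := B) 2 4 2 ▸ mo_rot (B := B) 2 2 4 ▸ y4 h.rot.rot
  have p2 : 0 < mo B j i k 2 2 4 := mo_rot (B := B) 2 2 4 ▸ y4 h.rot
  obtain ⟨a, b, c1, c2, c3, -⟩ := h.rel hC
  rw [(mul_eq_zero.1 c1).resolve_right p1.ne', (mul_eq_zero.1 c2).resolve_right p2.ne', zero_mul,
    zero_mul, add_zero] at c3
  refine h.rot.hr ?_ ?_ ((mo_rot _ _ _).trans c3)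
  · rwa [mo_rot]
  · rw [mo_rot]
    exact y4 h

end Vale.Agent.P280X.R3
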