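import Vale.Agent.P280X.R3.Defs
import Vale.Agent.P280Z.Pr.K226
import Vale.Agent.P280Z.Pr.Posj
import Vale.Agent.P280Z.Pr.Prj
import Vale.Agent.P280Z.Pr.Adjf
import Vale.Agent.P280Z.Pr.D2
import Vale.Agent.P280Z.Pr.Fax
import Vale.Agent.P280Z.Pr.Rd
import Vale.Agent.P280Z.Pr.Hr6

/-!
# P280X, block R3: three families with fibres of dimension two on an eightfold
-/

open Set
open Vale.Agent.P272.K Vale.Agent.P285.H281.FD Vale.Agent.P281Z
open Vale.Agent.P280Z Vale.Agent.P280Z.Rh Vale.Agent.P280Z.Pr Vale.Agent.P280Z.Ma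

noncomputable section

namespace Vale.Agent.P280X.R3

namespace K39

variable {T : CT} {V : Mf 8} {B : Bas T V} {i j k : B.J}

/-- three families -/
structure Thr (B : Bas T V) (i j k : B.J) : Prop where
  th : Th T
  cls : Cls 8 V
  ij : i ≠ j
  ik : i ≠ k
  jk : j ≠ k
  all : ∀ l, l = i ∨ l = j ∨ l = k
  pos : ∀ l, 0 < (B.F l).m
  d2 : ∀ l, (B.Q {l}).d = 2

theorem Thr.s1 (h : Thr B i j k) : Thr B j i k :=
  ⟨h.th, h.cls, h.ij.symm, h.jk, h.ik, fun l => by have := h.all l; tauto, h.pos, h.d2⟩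

theorem Thr.s2 (h : Thr B i j k) : Thr B i k j :=
  ⟨h.th, h.cls, h.ik, h.ij, h.jk.symm, fun l => by have := h.all l; tauto, h.pos, h.d2⟩

/-- the intersection numbers -/
def mo (B : Bas T V) (i j k : B.J) (a b c : ℕ) : ℝ :=
  T.int V (B.H i ^ a * (B.H j ^ b * B.H k ^ c))

theorem mo1 (a b c : ℕ) : mo B i j k a b c = mo B j i k b a c := by
  rw [mo, mo, mul_left_comm]

theorem mo2 (a b c : ℕ) : mo B i j k a b c = mo B i k j a c b := by
  rw [mo, mo, mul_comm (B.H j ^ b)]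

theorem Thr.sum (h : Thr B i j k) {M : Type} [AddCommMonoid M] (f : B.J → M) :
    ∑ l, f l = f i + (f j + f k) := by
  rw [show (Finset.univ : Finset B.J) = {i, j, k} from Finset.ext fun l => by
    simpa using h.all l, Finset.sum_insert (by simp [h.ij, h.ik]), Finset.sum_pair h.jk]

theorem Thr.dg (h : Thr B i j k) (l : B.J) : T.Dg V 1 (B.H l) := h.th.ok.po.deg (B.nn l)

theorem Thr.y6 (h : Thr B i j k) (l : B.J) : (B.Q {l}).y = 6 := by
  have := (B.Q {l}).dim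
  have := h.d2 l
  omega

theorem inv {l m : B.J} (h : l ≠ m) : ∀ r ∈ ({l} : Set B.J), (B.F r).dg (B.H m) = 0 :=
  fun r hr => by rw [mem_singleton_iff.1 hr, B.dual, if_neg h]

theorem Thr.z1 (h : Thr B i j k) (a : ℕ) {b c : ℕ} (e : 6 < b + c) : mo B i j k a b c = 0 := by
  rw [mo, PosjH.two (B.Q {i}) h.th.ok (h.dg j) (h.dg k) (inv h.ij) (inv h.ik)
    (by rw [h.y6]; exact e), mul_zero, map_zero]

theorem Thr.z2 (h : Thr B i j k) (b : ℕ) {a c : ℕ} (e : 6 < a + c) : mo B i j k a b c = 0 :=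
  (mo1 a b c).trans (h.s1.z1 b e)

theorem Thr.z3 (h : Thr B i j k) (c : ℕ) {a b : ℕ} (e : 6 < a + b) : mo B i j k a b c = 0 :=
  (mo2 a b c).trans (h.s2.z2 c e)

theorem Thr.cpl (h : Thr B i j k) : ({i}ᶜ : Set B.J) = insert k {j} := by
  ext l
  rcases h.all l with rfl | rfl | rfl <;> simp [h.ij, h.ik, h.jk, h.ij.symm, h.ik.symm]

theorem Thr.ybd (h : Thr B i j k) : 2 ≤ (B.Q {i}ᶜ).y ∧ (B.Q {i}ᶜ).y ≤ 4 := by
  have h1 := dimj_of posj T h.th.ok B h.cls.1.1 {i}ᶜ i (by simp)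
  have h2 := dimj_of posj T h.th.ok B h.cls.1.1 {j} k (by simp [h.jk.symm])
  rw [← h.cpl, h.y6, h.d2] at h2
  rw [h.d2] at h1
  omega

theorem Thr.pw (h : Thr B i j k) {a : ℕ} (e : (B.Q {i}ᶜ).y < a) : B.H i ^ a = 0 :=
  (B.Q {i}ᶜ).pow_zero' h.th.ok (h.dg i) (fun r hr => by
    rw [B.dual, if_neg (show ¬ r = i from hr)]) e

theorem Thr.ps (h : Thr B i j k) {y d : ℕ} (hy : (B.Q {i}ᶜ).y = y) (hd : y + d = 8) :
    0 < T.int V (B.H i ^ y * (B.H j + B.H k) ^ d) := by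
  have p := (posj T h.th.ok B h.cls.1.1 {i}ᶜ).2
  have := (B.Q {i}ᶜ).dim
  rw [compl_compl, prj_hS, hy, show (B.Q {i}ᶜ).d = d by omega, Pr.hS, h.sum] at p
  simp only [mem_singleton_iff, mem_compl_iff, h.ij.symm, h.ik.symm, if_true, if_false, not_true,
    not_false_iff, zero_add] at p
  rwa [mul_comm]

theorem Thr.p4 (h : Thr B i j k) (hy : (B.Q {i}ᶜ).y = 4) : 0 < mo B i j k 4 2 2 := by
  have p := h.ps hy (d := 4) rfl
  have e : B.H i ^ 4 * (B.H j + B.H k) ^ 4 = B.H i ^ 4 * (B.H j ^ 4 * B.H k ^ 0) +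
      (4 : ℝ) • (B.H i ^ 4 * (B.H j ^ 3 * B.H k ^ 1)) +
      (6 : ℝ) • (B.H i ^ 4 * (B.H j ^ 2 * B.H k ^ 2)) +
      (4 : ℝ) • (B.H i ^ 4 * (B.H j ^ 1 * B.H k ^ 3)) + B.H i ^ 4 * (B.H j ^ 0 * B.H k ^ 4) := by
    simp only [Algebra.smul_def, map_ofNat]
    ring
  simp only [e, map_add, map_smul, smul_eq_mul] at p
  have a1 := h.z3 0 (a := 4) (b := 4) (by norm_num)
  have a2 := h.z3 1 (a := 4) (b := 3) (by norm_num)
  have a3 := h.z2 1 (a := 4) (c := 3) (by norm_num)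
  have a4 := h.z2 0 (a := 4) (c := 4) (by norm_num)
  unfold mo at *
  linarith

theorem Thr.p3 (h : Thr B i j k) (hy : (B.Q {i}ᶜ).y = 3) :
    0 < mo B i j k 3 2 3 + mo B i j k 3 3 2 := by
  have p := h.ps hy (d := 5) rfl
  have e : B.H i ^ 3 * (B.H j + B.H k) ^ 5 = B.H i ^ 3 * (B.H j ^ 5 * B.H k ^ 0) +
      (5 : ℝ) • (B.H i ^ 3 * (B.H j ^ 4 * B.H k ^ 1)) +
      (10 : ℝ) • (B.H i ^ 3 * (B.H j ^ 3 * B.H k ^ 2)) +
      (10 : ℝ) • (B.H i ^ 3 * (B.H j ^ 2 * B.H k ^ 3)) +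
      (5 : ℝ) • (B.H i ^ 3 * (B.H j ^ 1 * B.H k ^ 4)) + B.H i ^ 3 * (B.H j ^ 0 * B.H k ^ 5) := by
    simp only [Algebra.smul_def, map_ofNat]
    ring
  simp only [e, map_add, map_smul, smul_eq_mul] at p
  have a1 := h.z3 0 (a := 3) (b := 5) (by norm_num)
  have a2 := h.z3 1 (a := 3) (b := 4) (by norm_num)
  have a3 := h.z2 1 (a := 3) (c := 4) (by norm_num)
  have a4 := h.z2 0 (a := 3) (c := 5) (by norm_num)
  unfold mo at *
  linarith

/-- the relations given by the family `i` -/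
theorem Thr.rel (hC : C236G) (h : Thr B i j k) : ∃ a b : ℝ,
    (∀ u v, u + v = 5 →
      mo B i j k 3 u v = a * mo B i j k 2 (u + 1) v + b * mo B i j k 2 u (v + 1)) ∧
    (B.H i ^ 4 = 0 → ∀ u v, u + v = 2 → a ^ 4 * mo B i j k 2 (u + 4) v +
      4 * a ^ 3 * b * mo B i j k 2 (u + 3) (v + 1) +
      6 * a ^ 2 * b ^ 2 * mo B i j k 2 (u + 2) (v + 2) +
      4 * a * b ^ 3 * mo B i j k 2 (u + 1) (v + 3) + b ^ 4 * mo B i j k 2 u (v + 4) = 0) := by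
  have hT := h.th.ok
  have hy := h.y6 i
  have f0 := fax T hT B.F i (B.Q {i}) h.cls.1.1
  have hm : (B.F i).m = 1 := by
    have := rd _ _ _ _ _ _ f0
    have := h.pos i
    have := h.d2 i
    omega
  have f1 := K226H.fa_cast f0 hm (h.d2 i) hy
  have f2 := (congrArg (fun y => Pl (nsm (B.F i)) y (tr T (B.Q {i}).sub.hol)) hy).mp
    (pl2_of fax g2 (g3x_of adjf) T h.th V B h.cls i hm (h.d2 i)).1
  have f3 := cm2 _ _ _ _ f1 f2
  have iv : ∀ k a, T.Dg (B.Q {i}).Y k a → Iv (nsm (B.F i)) k (T.pull (B.Q {i}).sub.hol a) :=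
    fun k a ha => ⟨dg_pull hT _ ha, ((B.Q {i}).s4 _).2 ⟨a, rfl⟩ i rfl⟩
  obtain ⟨w, w1, w2⟩ := (B.Q {i}).ex1 hT (h.dg j) (inv h.ij)
  obtain ⟨w', w3, w4⟩ := (B.Q {i}).ex1 hT (h.dg k) (inv h.ik)
  have iz : ∀ u v, Iv (nsm (B.F i)) (u + v) (B.H j ^ u * B.H k ^ v) := fun u v => by
    rw [w2, w4, ← map_pow, ← map_pow, ← map_mul]
    exact iv _ _ (hT.rg.dg_mul _ _ _ _ _ (dg_pow hT w1 u) (dg_pow hT w3 v))
  obtain ⟨a, b, t1⟩ : ∃ a b : ℝ, tr T (B.Q {i}).sub.hol 1 =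
      3 * B.H i - (1 : ℝ) • (a • B.H j + b • B.H k) := by
    refine ⟨-(B.F j).dg (tr T (B.Q {i}).sub.hol 1), -(B.F k).dg (tr T (B.Q {i}).sub.hol 1), ?_⟩
    have e : (B.F i).dg (tr T (B.Q {i}).sub.hol 1) = 3 := by
      rw [tr, map_sub, (B.F i).c1, (B.Q {i}).dg_pull hT rfl (hT.ch.deg _ _ 1), hm]
      norm_num
    refine (B.span _ (f1.dt 1)).trans ?_
    rw [h.sum, e]
    simp only [Algebra.smul_def, map_neg, map_one, map_ofNat]
    ring
  refine ⟨a, b, fun u v e => ?_, fun x4 u v e => ?_⟩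
  · have z7 : ∀ p q, p + q = 7 → B.H j ^ p * B.H k ^ q = 0 := fun p q e =>
      f1.van _ _ (by omega) (iz p q)
    have c := K226H.cube (T.int V) (x := B.H i) (g := a • B.H j + b • B.H k) (b := 1)
      (z := B.H j ^ u * B.H k ^ v) (by
        have z1 := z7 (u + 2) v (by omega)
        have z2 := z7 (u + 1) (v + 1) (by omega)
        have z3 := z7 u (v + 2) (by omega)
        simp only [Algebra.smul_def]
        linear_combination algebraMap ℝ _ a ^ 2 * z1 +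
          2 * algebraMap ℝ _ a * algebraMap ℝ _ b * z2 + algebraMap ℝ _ b ^ 2 * z3)
      (t1 ▸ f3 5 _ rfl (e ▸ iz u v))
    have e1 : B.H j ^ u * B.H k ^ v * (B.H i ^ 2 * (B.H i - (1 : ℝ) • (a • B.H j + b • B.H k))) =
        B.H i ^ 3 * (B.H j ^ u * B.H k ^ v) - a • (B.H i ^ 2 * (B.H j ^ (u + 1) * B.H k ^ v)) -
          b • (B.H i ^ 2 * (B.H j ^ u * B.H k ^ (v + 1))) := by
      simp only [Algebra.smul_def, map_one]
      ring
    simp only [e1, map_sub, map_smul, smul_eq_mul] at c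
    unfold mo
    linarith
  · have c := hC _ _ _ _ f1 f2 _ (prj_un hT B i) x4 2 _ (e ▸ iz u v) rfl
    change T.int V _ = 0 at c
    have e1 : B.H i ^ 2 * (3 * B.H i - tr T (B.Q {i}).sub.hol 1) ^ 4 * (B.H j ^ u * B.H k ^ v) =
        (a ^ 4) • (B.H i ^ 2 * (B.H j ^ (u + 4) * B.H k ^ v)) +
        (4 * a ^ 3 * b) • (B.H i ^ 2 * (B.H j ^ (u + 3) * B.H k ^ (v + 1))) +
        (6 * a ^ 2 * b ^ 2) • (B.H i ^ 2 * (B.H j ^ (u + 2) * B.H k ^ (v + 2))) +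
        (4 * a * b ^ 3) • (B.H i ^ 2 * (B.H j ^ (u + 1) * B.H k ^ (v + 3))) +
        (b ^ 4) • (B.H i ^ 2 * (B.H j ^ u * B.H k ^ (v + 4))) := by
      rw [t1]
      simp only [Algebra.smul_def, map_one, map_mul, map_pow, map_ofNat]
      ring
    simpa only [mo, e1, map_add, map_smul, smul_eq_mul] using c

/-- the four relations -/
theorem Thr.four (h : Thr B i j k) {a b : ℝ} (r : ∀ u v, u + v = 5 →
    mo B i j k 3 u v = a * mo B i j k 2 (u + 1) v + b * mo B i j k 2 u (v + 1)) :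
    b * mo B i j k 2 4 2 = 0 ∧ a * mo B i j k 2 2 4 = 0 ∧
    mo B i j k 3 3 2 = a * mo B i j k 2 4 2 + b * mo B i j k 2 3 3 ∧
    mo B i j k 3 2 3 = a * mo B i j k 2 3 3 + b * mo B i j k 2 2 4 := by
  have r1 := r 4 1 rfl
  have r2 := r 1 4 rfl
  rw [h.z3 1 (by norm_num), h.z3 1 (by norm_num)] at r1
  rw [h.z2 1 (by norm_num), h.z2 1 (a := 2) (c := 4 + 1) (by norm_num)] at r2
  exact ⟨by linarith, by linarith, r 3 2 rfl, r 2 3 rfl⟩

theorem Thr.no3' (hC : C236G) (h : Thr B i j k) (x4 : B.H i ^ 4 = 0) (q : mo B i j k 3 3 2 = 0) :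
    mo B i j k 3 2 3 = 0 := by
  obtain ⟨a, b, r, -⟩ := h.s2.s1.rel hC
  have r4 := r 3 2 rfl
  rw [show mo B k i j 2 (3 + 1) 2 = 0 by
    rw [mo, show 3 + 1 = 4 from rfl, x4, zero_mul, mul_zero, map_zero],
    show mo B k i j 2 3 (2 + 1) = 0 by rw [mo1, mo2]; exact q, mul_zero, mul_zero, add_zero,
    mo1, mo2] at r4
  exact r4

theorem Thr.no3 (hC : C236G) (h : Thr B i j k) : (B.Q {i}ᶜ).y ≠ 3 := fun hy => by
  have x4 := h.pw (a := 4) (by omega)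
  have p := h.p3 hy
  obtain ⟨a, b, r, s⟩ := h.rel hC
  obtain ⟨r1, r2, r3, r4⟩ := h.four r
  have s1 := s x4 2 0 rfl
  have s2 := s x4 1 1 rfl
  have s3 := s x4 0 2 rfl
  rw [h.z3 0 (by norm_num), h.z3 (0 + 1) (by norm_num)] at s1
  rw [h.z3 1 (by norm_num), h.z2 1 (by norm_num)] at s2
  rw [h.z2 0 (by norm_num), h.z2 (0 + 1) (by norm_num)] at s3
  norm_num at s1 s2 s3
  have t1 : a * b * mo B i j k 2 3 3 = 0 := by
    by_cases e : a * b = 0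
    · rw [e, zero_mul]
    · exact mul_left_cancel₀ e (by linear_combination s2 / 6 - 2 / 3 * a ^ 3 * r1 - 2 / 3 * b ^ 3 * r2)
  have t2 : b * mo B i j k 2 2 4 = 0 := by
    by_cases e : b = 0
    · rw [e, zero_mul]
    · exact mul_left_cancel₀ (pow_ne_zero 3 e)
        (by linear_combination s1 - 6 * a ^ 2 * b * r1 - 4 * b ^ 2 * t1)
  have t3 : a * mo B i j k 2 4 2 = 0 := by
    by_cases e : a = 0
    · rw [e, zero_mul]
    · exact mul_left_cancel₀ (pow_ne_zero 3 e)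
        (by linear_combination s3 - 6 * a * b ^ 2 * r2 - 4 * a ^ 2 * t1)
  have t4 : mo B i j k 3 3 2 * mo B i j k 3 2 3 = 0 := by
    rw [r3, r4, t2, t3]
    linear_combination mo B i j k 2 3 3 * t1
  rcases mul_eq_zero.1 t4 with e | e
  · rw [e, h.no3' hC x4 e] at p
    norm_num at p
  · rw [e, mo2, h.s2.no3' hC x4 ((mo2 _ _ _).symm.trans e)] at p
    norm_num at p

theorem hr (hT : T.OK) {y : ℕ} (Y : Mf y) (hy : y = 6) (x h : T.H Y) : T.Nn Y x → T.Nn Y h →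
    (∀ s t : ℝ, 0 < s → 0 < t → T.Kc Y (s • x + t • h)) →
    (∀ a, T.Dg Y 1 a → ∃ s t : ℝ, a = s • x + t • h) → x ^ 5 = 0 → h ^ 5 = 0 →
    0 < T.int Y (x ^ 2 * h ^ 4) → 0 < T.int Y (x ^ 4 * h ^ 2) → T.int Y (x ^ 3 * h ^ 3) ≠ 0 := by
  subst hy
  exact hr6 T hT Y x h

theorem Thr.q (h : Thr B i j k) (p1 : 0 < mo B i j k 2 4 2) (p2 : 0 < mo B i j k 2 2 4) :
    mo B i j k 2 3 3 ≠ 0 := by
  have hT := h.th.ok
  obtain ⟨cV, kV⟩ := (fano_iff hT V).1 h.cls.1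
  have kv := (hT.po.kah V).2 ⟨_, kV⟩
  have sb := (B.Q {i}).sub
  have cY := (B.Q {i}).conn cV
  have inj : ∀ b, T.pull sb.hol b = 0 → b = 0 := fun b =>
    pull_inj hT sb (B.Q {i}).dim (B.Q {i}).onto cY kv
  obtain ⟨w, w1, w2⟩ := (B.Q {i}).ex1 hT (h.dg j) (inv h.ij)
  obtain ⟨w', w3, w4⟩ := (B.Q {i}).ex1 hT (h.dg k) (inv h.ik)
  have n1 := nn_desc hT sb (B.Q {i}).dim (B.Q {i}).onto cY kv w1 (w2 ▸ B.nn j)
  have n2 := nn_desc hT sb (B.Q {i}).dim (B.Q {i}).onto cY kv w3 (w4 ▸ B.nn k)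
  obtain ⟨c, hc⟩ := prj_push hT sb (d := 2) (by rw [h.y6]) cY (dg_pow hT (h.dg i) 2)
  have e : ∀ u v, mo B i j k 2 u v = c * T.int _ (w ^ u * w' ^ v) := fun u v => by
    rw [mo, w2, w4, ← map_pow, ← map_pow, ← map_mul, prj_int hT sb hc]
  have nn : ∀ u v, 0 ≤ T.int _ (w ^ u * w' ^ v) := fun u v => hT.po.wp_int (wp_pow hT n1
    (mul_one (w' ^ v) ▸ wp_pow hT n2 (hT.po.wp_one _) v) u)
  rw [e] at p1 p2 ⊢
  have c0 : c ≠ 0 := left_ne_zero_of_mul p1.ne'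
  refine mul_ne_zero c0 (hr hT _ (h.y6 i) w w' n1 n2 (fun s t hs ht => B.kcY _ _ (by
      rw [CT.Dg, map_add, map_smul, map_smul, w1, w3]) fun l hl => ?_) (fun a ha => ?_)
    (inj _ ?_) (inj _ ?_) ((nn 2 4).lt_of_ne' (right_ne_zero_of_mul p2.ne'))
    ((nn 4 2).lt_of_ne' (right_ne_zero_of_mul p1.ne')))
  · rw [map_add, map_smul, map_smul, ← w2, ← w4, map_add, map_smul, map_smul, B.dual, B.dual]
    rcases h.all l with rfl | rfl | rfl
    · exact (hl rfl).elim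
    · simp [h.jk, hs]
    · simp [h.jk.symm, ht]
  · refine ⟨(B.F j).dg (T.pull sb.hol a), (B.F k).dg (T.pull sb.hol a),
      sub_eq_zero.1 (inj _ ?_)⟩
    rw [map_sub, map_add, map_smul, map_smul, ← w2, ← w4, sub_eq_zero]
    refine (B.span _ (dg_pull hT _ ha)).trans ?_
    rw [h.sum, (B.Q {i}).dg_pull hT rfl ha, zero_smul, zero_add]
  · rw [map_pow, ← w2]
    exact h.s1.pw (by have := h.s1.ybd; omega)
  · rw [map_pow, ← w4]
    exact h.s2.s1.pw (by have := h.s2.s1.ybd; omega)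

end K39

open K39 in
/-- **row K2228** -/
theorem k39_of (hC : C236G) : K2228 := by
  intro T th V B cl i j k ij ik jk all pos d2
  have h : Thr B i j k := ⟨th, cl, ij, ik, jk, all, pos, d2⟩
  by_contra hn
  push Not at hn
  have y4 : ∀ {i j k : B.J}, Thr B i j k → (B.Q {i}ᶜ).y = 4 := fun {i _ _} h => by
    have := h.ybd
    have := h.no3 hC
    have := hn i
    omega
  have p1 := h.p4 (y4 h)
  have p2 := h.s1.p4 (y4 h.s1)
  have p3 := h.s2.s1.p4 (y4 h.s2.s1)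
  rw [← mo1] at p2
  rw [← mo1, ← mo2] at p3
  obtain ⟨a, b, r, -⟩ := h.rel hC
  obtain ⟨r1, r2, -, r4⟩ := h.four r
  rw [(mul_eq_zero.1 r1).resolve_right p2.ne', (mul_eq_zero.1 r2).resolve_right p3.ne',
    zero_mul, zero_mul, add_zero, mo1] at r4
  exact h.s1.q (by rwa [← mo1]) (by rwa [← mo1]) r4

end Vale.Agent.P280X.R3
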