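import Vale.Agent.P280X.R3.Defs
import Vale.Agent.P280Z.Pr.All

/-!
# P280X, block R3: one family splits off
-/

open Set
open Vale.Agent.P272.K Vale.Agent.P285.H281.FD Vale.Agent.P281Z
open Vale.Agent.P280Z Vale.Agent.P280Z.Rh Vale.Agent.P280Z.Pr

noncomputable section

namespace Vale.Agent.P280X.R3

namespace SplH

variable {T : CT} {n : ℕ} {V : Mf n}

/-- the monomials -/
def mo (B : Bas T V) (e : B.J → ℕ) : T.H V := ∏ l, B.H l ^ e l

theorem mo_add (B : Bas T V) (e e' : B.J → ℕ) : mo B (e + e') = mo B e * mo B e' := by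
  simp only [mo, Pi.add_apply, pow_add, Finset.prod_mul_distrib]

theorem mo_one (B : Bas T V) (i : B.J) (k : ℕ) : mo B (Pi.single i k) = B.H i ^ k := by
  rw [mo, Finset.prod_eq_single i (fun l _ h => by rw [Pi.single_eq_of_ne h, pow_zero])
    (fun h => (h (Finset.mem_univ i)).elim), Pi.single_eq_same]

theorem sum_one {J : Type} [Fintype J] [DecidableEq J] (i : J) (k : ℕ) (e : J → ℕ) :
    ∑ l, (Pi.single i k + e : J → ℕ) l = k + ∑ l, e l := by
  simp only [Pi.add_apply, Finset.sum_add_distrib, Finset.sum_pi_single', Finset.mem_univ, if_true]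

theorem split {J : Type} [DecidableEq J] (e : J → ℕ) (i : J) (k : ℕ) (h : k ≤ e i) :
    ∃ e' : J → ℕ, e' i + k = e i ∧ e = Pi.single i k + e' :=
  ⟨Function.update e i (e i - k), by rw [Function.update_self]; omega, funext fun l => by
    by_cases hl : l = i
    · rw [hl, Pi.add_apply, Pi.single_eq_same, Function.update_self]
      omega
    · rw [Pi.add_apply, Pi.single_eq_of_ne hl, Function.update_of_ne hl, zero_add]⟩

theorem mo_pull (hT : T.OK) (B : Bas T V) (j : B.J) (e : B.J → ℕ) (h : e j = 0) :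
    ∃ b, T.Dg (B.Q {j}).Y (∑ l, e l) b ∧ mo B e = T.pull (B.Q {j}).sub.hol b := by
  unfold mo
  generalize (Finset.univ : Finset B.J) = s
  induction s using Finset.induction_on with
  | empty => exact ⟨1, hT.rg.dg_one _, by rw [Finset.prod_empty, map_one]⟩
  | insert l s hl ih =>
    obtain ⟨b, h1, h2⟩ := ih
    rw [Finset.sum_insert hl, Finset.prod_insert hl, h2]
    by_cases k : l = j
    · rw [k, h, pow_zero, one_mul, zero_add]
      exact ⟨b, h1, rfl⟩
    · obtain ⟨c, h3, h4⟩ := (B.Q {j}).ex1 hT (hT.po.deg (B.nn l)) fun i hi => by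
        rw [mem_singleton_iff.1 hi, B.dual, if_neg (Ne.symm k)]
      exact ⟨c ^ e l * b, hT.rg.dg_mul _ _ _ _ _ (Ma.dg_pow hT h3 _) h1, by
        rw [h4, map_mul, map_pow]⟩

theorem van (hT : T.OK) (B : Bas T V) {e : B.J → ℕ} (he : ∑ l, e l = n) {i : B.J}
    (h : e i < (B.Q {i}).d) : T.int V (mo B e) = 0 := by
  obtain ⟨e', h1, h2⟩ := split e i (e i) le_rfl
  obtain ⟨b, h3, h4⟩ := mo_pull hT B i e' (by omega)
  have := (B.Q {i}).dim
  rw [h2, sum_one] at he
  rw [h2, mo_add, h4, ← h3, hT.rg.pr_zero _ _ _ (by omega), map_zero, mul_zero, map_zero]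

theorem top (hT : T.OK) (hc : ConnectedSpace V.X) (B : Bas T V) (j : B.J) :
    ∃ e : B.J → ℕ, ∑ l, e l = n ∧ e j = (B.Q {j}ᶜ).y ∧ T.int V (mo B e) ≠ 0 := by
  by_contra c
  have key : ∀ (k : ℕ) (e : B.J → ℕ), k + ∑ l, e l = n → e j = (B.Q {j}ᶜ).y →
      T.int V (hS B {j}ᶜ ^ k * mo B e) = 0 := by
    intro k
    induction k with
    | zero =>
      intro e h1 h2
      rw [pow_zero, one_mul]
      by_contra h3
      exact c ⟨e, by omega, h2, h3⟩
    | succ k ih =>
      intro e h1 h2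
      rw [pow_succ, mul_assoc]
      nth_rewrite 2 [hS]
      rw [Finset.sum_mul, Finset.mul_sum, map_sum]
      refine Finset.sum_eq_zero fun i _ => ?_
      split_ifs with hi
      · rw [← pow_one (B.H i), ← mo_one, ← mo_add]
        exact ih _ (by rw [sum_one]; omega)
          (by rw [Pi.add_apply, Pi.single_eq_of_ne (Ne.symm hi), zero_add, h2])
      · rw [zero_mul, mul_zero, map_zero]
  have p := (posj T hT B hc {j}ᶜ).2
  have d := (B.Q {j}ᶜ).dim
  rw [compl_compl, prj_hS, ← mo_one, key _ _ (by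
    rw [← add_zero (Pi.single j _), sum_one]
    simp only [Pi.zero_apply, Finset.sum_const_zero]
    omega) (Pi.single_eq_same _ _)] at p
  exact lt_irrefl _ p

theorem cm_two (th : Th T) (B : Bas T V) (cl : Cls n V) {j : B.J} (hm : 0 < (B.F j).m)
    (h : (B.Q {j}).d = 2) : (B.F j).m = 1 ∧ Cm B j := by
  have f := fax T th.ok B.F j (B.Q {j}) cl.1.1
  have hm1 : (B.F j).m = 1 := by
    have := rd _ _ _ _ _ _ f
    omega
  have pl := (pl2_of fax g2 (g3x_of adjf) T th V B cl j hm1 h).1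
  rw [hm1, h] at f
  rw [Cm, h]
  exact ⟨hm1, cm2 _ _ _ _ f pl⟩

theorem rel (th : Th T) (B : Bas T V) (cl : Cls n V) {j : B.J} (hm : 0 < (B.F j).m)
    (h : (B.Q {j}).d = 2) : ∃ α : B.J → ℝ, α j = 0 ∧ ∀ e : B.J → ℕ, e j = 0 →
      3 + ∑ l, e l = n → T.int V (mo B (Pi.single j 3 + e)) =
        ∑ i, α i * T.int V (mo B (Pi.single i 1 + (Pi.single j 2 + e))) := by
  have hT := th.ok
  obtain ⟨h1, h2⟩ := cm_two th B cl hm h
  have dt := (fax T hT B.F j (B.Q {j}) cl.1.1).dt 1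
  obtain ⟨g, hg⟩ : ∃ g, g = (3 : ℝ) • B.H j - tr T (B.Q {j}).sub.hol 1 := ⟨_, rfl⟩
  have dg : T.Dg V 1 g := by
    rw [hg, CT.Dg, map_sub, map_smul, hT.po.deg (B.nn j)]
    exact congrArg _ dt
  have g0 : (B.F j).dg g = 0 := by
    rw [hg, map_sub, map_smul, B.dual, if_pos rfl, tr, map_sub, (B.F j).c1,
      (B.Q {j}).dg_pull hT rfl (hT.ch.deg _ _ 1), h1]
    norm_num
  obtain ⟨w, w1, w2⟩ := (B.Q {j}).ex1 hT dg fun k hk => by rw [mem_singleton_iff.1 hk, g0]
  refine ⟨fun i => (B.F i).dg g, g0, fun e h3 h4 => ?_⟩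
  obtain ⟨b, b1, b2⟩ := mo_pull hT B j e h3
  have dim := (B.Q {j}).dim
  have k := K226H.cube (T.int V) (x := B.H j) (g := g) (z := mo B e) (b := 1) (by
    rw [w2, b2, ← map_pow, ← map_mul, ← hT.rg.dg_mul _ _ _ _ _ (Ma.dg_pow hT w1 2) b1,
      hT.rg.pr_zero _ _ _ (by omega), map_zero]) (by
    have k := h2 (∑ l, e l) (mo B e) (by omega) (b2 ▸
      ⟨Ma.dg_pull hT _ b1, ((B.Q {j}).s4 _).2 ⟨b, rfl⟩ j rfl⟩)
    rw [h] at k
    rw [one_smul, hg, ← map_ofNat (algebraMap ℝ (T.H V)) 3, ← Algebra.smul_def, sub_sub_cancel]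
    exact k)
  rw [one_smul, mul_sub, mul_sub, map_sub, sub_eq_zero, B.span g dg, Finset.mul_sum,
    Finset.mul_sum, map_sum] at k
  rw [mo_add, mo_one, mul_comm, pow_succ, k]
  refine Finset.sum_congr rfl fun i _ => ?_
  rw [mo_add, mo_add, mo_one, mo_one, mul_smul_comm, mul_smul_comm, map_smul, smul_eq_mul]
  congr 2
  ring

theorem low (hT : T.OK) (hc : ConnectedSpace V.X) (B : Bas T V) (S : Finset B.J) :
    (B.Q (S : Set B.J)).y + ∑ l ∈ S, (B.Q {l}).d ≤ n := by
  induction S using Finset.induction_on with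
  | empty =>
    have := (B.Q ((∅ : Finset B.J) : Set B.J)).dim
    rw [Finset.sum_empty]
    omega
  | insert j S hj ih =>
    have := dimj_of posj T hT B hc (S : Set B.J) j hj
    rw [Finset.coe_insert, Finset.sum_insert hj]
    omega

theorem bd (hT : T.OK) (hc : ConnectedSpace V.X) (B : Bas T V) (j : B.J) :
    (B.Q {j}).d ≤ (B.Q {j}ᶜ).y ∧ (B.Q {j}ᶜ).y + ∑ l, (B.Q {l}).d ≤ n + (B.Q {j}).d := by
  have h1 := dimj_of posj T hT B hc {j}ᶜ j fun h => h rfl
  have h2 := low hT hc B (Finset.univ.erase j)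
  rw [show ((Finset.univ.erase j : Finset B.J) : Set B.J) = {j}ᶜ from Set.ext fun l => by simp]
    at h2
  rw [← Finset.add_sum_erase _ _ (Finset.mem_univ j)]
  omega

theorem one (th : Th T) (B : Bas T V) (cl : Cls n V) (h3 : 3 ≤ Fintype.card B.J)
    (h1 : ∀ l, 1 ≤ (B.Q {l}).d) (hs : 1 + ∑ l, (B.Q {l}).d = n) {j : B.J} (hm : 0 < (B.F j).m)
    (h : (B.Q {j}).d = 2) : ∃ l, (B.Q {l}).d = (B.Q {l}ᶜ).y := by
  have hT := th.ok
  by_contra c
  obtain ⟨d, hd⟩ : ∃ d : B.J → ℕ, ∀ l, (B.Q {l}).d = d l := ⟨_, fun _ => rfl⟩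
  have v : ∀ {e : B.J → ℕ}, ∑ l, e l = n → ∀ i, e i < d i → T.int V (mo B e) = 0 :=
    fun he i hi => van hT B he (hd i ▸ hi)
  have m : ∀ l, T.int V (mo B (Pi.single l 1 + d)) ≠ 0 := fun l => by
    obtain ⟨e, e1, e2, e3⟩ := top hT cl.1.1 B l
    have b := bd hT cl.1.1 B l
    have b' : (B.Q {l}).d ≠ (B.Q {l}ᶜ).y := fun k => c ⟨l, k⟩
    simp only [hd] at hs b b'
    have k : ∀ i, (Pi.single l 1 + d : B.J → ℕ) i ≤ e i := fun i => by
      by_cases hi : i = l
      · rw [hi, Pi.add_apply, Pi.single_eq_same]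
        omega
      · rw [Pi.add_apply, Pi.single_eq_of_ne hi, zero_add]
        exact not_lt.1 fun k => e3 (v e1 i k)
    rwa [funext fun i => (Finset.sum_eq_sum_iff_of_le fun i _ => k i).1
      (by rw [sum_one, hs, e1]) i (Finset.mem_univ i)]
  simp only [hd] at hs h h1
  obtain ⟨α, a0, a1⟩ := rel th B cl hm ((hd j).trans h)
  obtain ⟨d', d1, d2⟩ := split d j 2 h.ge
  have s1 := congrArg (fun e : B.J → ℕ => ∑ l, e l) d2
  simp only [sum_one] at s1
  have k1 := a1 d' (by omega) (by omega)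
  rw [← d2, show (3 : ℕ) = 1 + 2 from rfl, Pi.single_add, add_assoc, ← d2] at k1
  obtain ⟨i, -, hi⟩ := Finset.exists_ne_zero_of_sum_ne_zero (k1 ▸ m j)
  have ij : i ≠ j := fun k => hi (by rw [k, a0, zero_mul])
  obtain ⟨l, -, hl⟩ := Finset.exists_mem_notMem_of_card_lt_card (s := {i, j}) (t := Finset.univ)
    (by rw [Finset.card_pair ij, Finset.card_univ]; omega)
  rw [Finset.mem_insert, Finset.mem_singleton, not_or] at hl
  have di : d' i = d i := by rw [d2, Pi.add_apply, Pi.single_eq_of_ne ij, zero_add]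
  obtain ⟨u, u1, u2⟩ := split d' i 1 (di ▸ h1 i)
  have s2 := congrArg (fun e : B.J → ℕ => ∑ l, e l) u2
  simp only [sum_one] at s2
  have uj : u j = 0 := by
    have := congrFun u2 j
    rw [Pi.add_apply] at this
    omega
  have k2 := a1 (Pi.single l 1 + u)
    (by rw [Pi.add_apply, Pi.single_eq_of_ne (Ne.symm hl.2), uj]) (by rw [sum_one]; omega)
  rw [v (by rw [sum_one, sum_one]; omega) i (by
      rw [Pi.add_apply, Pi.add_apply, Pi.single_eq_of_ne ij, Pi.single_eq_of_ne (Ne.symm hl.1)]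
      omega),
    Finset.sum_eq_single i (fun k _ hk => by
      rw [v (by rw [sum_one, sum_one, sum_one]; omega) i (by
        rw [Pi.add_apply, Pi.add_apply, Pi.add_apply, Pi.single_eq_of_ne ij,
          Pi.single_eq_of_ne (Ne.symm hl.1), Pi.single_eq_of_ne (Ne.symm hk)]
        omega), mul_zero]) (fun k => (k (Finset.mem_univ i)).elim),
    show (Pi.single i 1 + (Pi.single j 2 + (Pi.single l 1 + u)) : B.J → ℕ) = Pi.single l 1 + d by
      rw [d2, u2]; abel] at k2
  exact mul_ne_zero (left_ne_zero_of_mul hi) (m l) k2.symm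

end SplH

open SplH in
theorem spl_of (h3 : CM3G) (h8 : K2228) : SPL := by
  intro T th n V B h7 cl hn hJ pos
  have hc : ConnectedSpace V.X := cl.1.1
  have d2 : ∀ j, 2 ≤ (B.Q {j}).d := fun j => by
    have := rd _ _ _ _ _ _ (fax T th.ok B.F j (B.Q {j}) hc)
    have := pos j
    omega
  have b := bd th.ok hc B
  have s : ∀ l, (B.Q {l}).d + 2 * Fintype.card B.J ≤ ∑ l, (B.Q {l}).d + 2 := fun l => by
    have := Finset.card_nsmul_le_sum (Finset.univ.erase l) (fun l => (B.Q {l}).d) 2 fun l _ => d2 l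
    rw [Finset.card_erase_of_mem (Finset.mem_univ l), Finset.card_univ, smul_eq_mul] at this
    rw [← Finset.add_sum_erase _ _ (Finset.mem_univ l)]
    omega
  obtain ⟨j, hj⟩ : ∃ j, (B.Q {j}).d = 2 := by
    by_contra c
    have := Finset.card_nsmul_le_sum Finset.univ (fun l => (B.Q {l}).d) 3 fun l _ => by
      have := d2 l
      have : (B.Q {l}).d ≠ 2 := fun k => c ⟨l, k⟩
      omega
    rw [Finset.card_univ, smul_eq_mul] at this
    obtain ⟨j⟩ := Fintype.card_pos_iff.1 (show 0 < Fintype.card B.J by omega)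
    have := b j
    omega
  have bj := b j
  by_cases e0 : ∑ l, (B.Q {l}).d = n
  · exact ⟨j, by omega, (cm_two th B cl (pos j) hj).2⟩
  by_cases e1 : 1 + ∑ l, (B.Q {l}).d = n
  · obtain ⟨l, hl⟩ := one th B cl hJ (fun l => by have := d2 l; omega) e1 (pos j) hj
    refine ⟨l, hl, ?_⟩
    have := s l
    have := d2 l
    by_cases k : (B.Q {l}).d = 2
    · exact (cm_two th B cl (pos l) k).2
    · exact h3 T th V B cl (by omega) l (pos l) (by omega)
  have := s j
  obtain rfl : n = 8 := by omega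
  obtain ⟨i, j, k, ij, ik, jk, e⟩ := Finset.card_eq_three.1
    (show (Finset.univ : Finset B.J).card = 3 by rw [Finset.card_univ]; omega)
  have a2 : ∀ l, (B.Q {l}).d = 2 := fun l => by
    have := s l
    have := d2 l
    omega
  obtain ⟨l, hl⟩ := h8 T th V B cl i j k ij ik jk
    (fun l => by simpa [e] using (e ▸ Finset.mem_univ l :)) pos a2
  exact ⟨l, by rw [hl, a2], (cm_two th B cl (pos l) (a2 l)).2⟩

end Vale.Agent.P280X.R3
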